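import Vale.Agent.P254u.Cases

/-!
# P254: the centroid inequality for down-closed convex bodies in three dimensions
-/

namespace Vale.Agent.P254u

open MeasureTheory Set Filter
open scoped Topology

/-- A down-closed convex body in the orthant. -/
structure DownBody (C : Set R3) : Prop where
  cpt : IsCompact C
  conv : Convex ℝ C
  pos : ∀ x ∈ C, ∀ k, 0 ≤ x k
  down : ∀ x ∈ C, ∀ y : R3, (∀ k, 0 ≤ y k) → (∀ k, y k ≤ x k) → y ∈ C
  zero : (0 : R3) ∈ C

theorem DownBody.exists_rat {C : Set R3} (h : DownBody C) {R : ℝ} (hR : 0 < R)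
    (hCR : ∀ x ∈ C, ∀ k, x k ≤ R) {x : R3} (hx : x ∉ C) (hx0 : ∀ k, 0 ≤ x k) :
    ∃ q : Fin 3 → ℚ, (∀ k, (0 : ℝ) ≤ (q k : ℝ)) ∧
      (∀ a ∈ C, dot (fun k => (q k : ℝ)) a ≤ 1) ∧ 1 < dot (fun k => (q k : ℝ)) x := by
  obtain ⟨f, u, hfC, hfx⟩ := geometric_hahn_banach_closed_point h.conv h.cpt.isClosed hx
  have hu : 0 < u := by simpa using hfC 0 h.zero
  set c : R3 := fun k => f (Pi.single k 1) with hc
  have hf : ∀ a : R3, f a = dot c a := by
    intro a
    have e : a = ∑ k, a k • (Pi.single k (1 : ℝ) : R3) := by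
      funext j; simp [Finset.sum_apply, Pi.single_apply]
    calc f a = f (∑ k, a k • (Pi.single k (1 : ℝ) : R3)) := by rw [← e]
      _ = ∑ k, a k * c k := by simp [map_sum, hc]
      _ = dot c a := by rw [dot_sum]; exact Finset.sum_congr rfl fun k _ => mul_comm _ _
  set cp : R3 := fun k => max (c k) 0 with hcp
  have hpC : ∀ a ∈ C, dot cp a < u := by
    intro a ha
    set a' : R3 := fun k => if 0 ≤ c k then a k else 0 with ha'
    have hmem : a' ∈ C := h.down a ha a'
      (fun k => by simp only [ha']; split_ifs <;> simp [h.pos a ha k])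
      (fun k => by simp only [ha']; split_ifs <;> simp [h.pos a ha k])
    refine lt_of_eq_of_lt ?_ (hf a' ▸ hfC a' hmem)
    rw [dot_sum, dot_sum]
    refine Finset.sum_congr rfl fun k _ => ?_
    simp only [hcp, ha']
    split_ifs with hk
    · rw [max_eq_left hk]
    · rw [max_eq_right (le_of_not_ge hk)]; ring
  have hpx : u < dot cp x := by
    refine lt_of_lt_of_le (hf x ▸ hfx) ?_
    rw [dot_sum, dot_sum]
    exact Finset.sum_le_sum fun k _ => mul_le_mul_of_nonneg_right (le_max_left _ _) (hx0 k)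
  set u' := (u + dot cp x) / 2 with hu'
  have h1 : u < u' := by linarith
  have h2 : u' < dot cp x := by linarith
  have hu0 : 0 < u' := by linarith
  set δ := (1 - u / u') / (3 * R) with hδ
  have hδ0 : 0 < δ := div_pos (by rw [sub_pos, div_lt_one hu0]; exact h1) (by positivity)
  choose q hq1 hq2 using fun k => exists_rat_btwn (lt_add_of_pos_right (cp k / u') hδ0)
  have hqn : ∀ k, (0 : ℝ) ≤ (q k : ℝ) := fun k =>
    le_trans (div_nonneg (le_max_right _ _) hu0.le) (hq1 k).le
  refine ⟨q, hqn, fun a ha => ?_, ?_⟩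
  · have b1 : dot (fun k => (q k : ℝ)) a ≤ dot cp a / u' + 3 * R * δ := by
      rw [dot_sum, dot_sum, Finset.sum_div, show 3 * R * δ = ∑ _k : Fin 3, R * δ by simp; ring,
        ← Finset.sum_add_distrib]
      refine Finset.sum_le_sum fun k _ => ?_
      have := mul_le_mul_of_nonneg_right (hq2 k).le (h.pos a ha k)
      have := mul_le_mul_of_nonneg_left (hCR a ha k) hδ0.le
      rw [mul_div_right_comm]
      linarith
    have b2 : dot cp a / u' ≤ u / u' := by gcongr; exact (hpC a ha).le
    have b3 : 3 * R * δ = 1 - u / u' := mul_div_cancel₀ _ (by positivity)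
    linarith
  · refine lt_of_lt_of_le ((one_lt_div hu0).2 h2) ?_
    rw [dot_sum, dot_sum, Finset.sum_div]
    refine Finset.sum_le_sum fun k _ => ?_
    rw [mul_div_right_comm]
    exact mul_le_mul_of_nonneg_right (hq1 k).le (hx0 k)

/-- The product of the first moments is controlled by the fourth power of the volume. -/
theorem DownBody.eight_le {C : Set R3} (h : DownBody C) :
    8 * ∏ k, ∫ x in C, x k ≤ volume.real C ^ 4 := by
  classical
  obtain ⟨R₀, hR₀⟩ := h.cpt.exists_bound_of_continuousOn (continuous_id (X := R3)).continuousOn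
  set R := max R₀ 1 with hRd
  have hR : 0 < R := lt_of_lt_of_le one_pos (le_max_right _ _)
  have hCR : ∀ x ∈ C, ∀ k, x k ≤ R := fun x hx k =>
    (le_abs_self _).trans ((norm_le_pi_norm x k).trans ((hR₀ x hx).trans (le_max_left _ _)))
  set caps : Finset R3 := Finset.univ.image fun k : Fin 3 => (Pi.single k R⁻¹ : R3) with hcaps
  obtain ⟨e, he⟩ := exists_surjective_nat (Fin 3 → ℚ)
  set W : ℕ → R3 := fun i k => (e i k : ℝ) with hW
  set F : ℕ → Finset R3 := fun n => caps ∪
    ((Finset.range n).filter fun i => (∀ k, 0 ≤ W i k) ∧ ∀ a ∈ C, dot (W i) a ≤ 1).image W with hF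
  have hdot : ∀ (k : Fin 3) (a : R3), dot (Pi.single k R⁻¹) a = R⁻¹ * a k := fun k a => by
    simp [dot_sum, Pi.single_apply]
  have hgood : ∀ n, Good (F n) := by
    intro n
    refine ⟨fun w hw k => ?_, fun k => ⟨Pi.single k R⁻¹, Finset.mem_union_left _
      (Finset.mem_image_of_mem _ (Finset.mem_univ k)), by simp [hR]⟩⟩
    rcases Finset.mem_union.1 hw with hw | hw
    · obtain ⟨j, -, rfl⟩ := Finset.mem_image.1 hw
      rcases eq_or_ne k j with rfl | hkj
      · simp [hR.le]
      · simp [hkj]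
    · obtain ⟨i, hi, rfl⟩ := Finset.mem_image.1 hw
      exact (Finset.mem_filter.1 hi).2.1 k
  have hCsub : ∀ n, C ⊆ body (F n) := by
    intro n a ha
    refine ⟨h.pos a ha, fun w hw => ?_⟩
    rcases Finset.mem_union.1 hw with hw | hw
    · obtain ⟨j, -, rfl⟩ := Finset.mem_image.1 hw
      rw [hdot, inv_mul_le_one₀ hR]; exact hCR a ha j
    · obtain ⟨i, hi, rfl⟩ := Finset.mem_image.1 hw
      exact (Finset.mem_filter.1 hi).2.2 a ha
  have hanti : Antitone fun n => body (F n) := by
    intro n n' hn x hx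
    refine ⟨hx.1, fun w hw => hx.2 w ?_⟩
    rcases Finset.mem_union.1 hw with hw | hw
    · exact Finset.mem_union_left _ hw
    · obtain ⟨i, hi, rfl⟩ := Finset.mem_image.1 hw
      obtain ⟨hi1, hi2⟩ := Finset.mem_filter.1 hi
      exact Finset.mem_union_right _ (Finset.mem_image_of_mem W (Finset.mem_filter.2
        ⟨Finset.mem_range.2 (lt_of_lt_of_le (Finset.mem_range.1 hi1) hn), hi2⟩))
  have hinter : ⋂ n, body (F n) = C := by
    refine Subset.antisymm (fun x hx => ?_) (subset_iInter hCsub)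
    rw [mem_iInter] at hx
    by_contra hxC
    obtain ⟨q, hq0, hqC, hqx⟩ := h.exists_rat hR hCR hxC (hx 0).1
    obtain ⟨i, rfl⟩ := he q
    exact not_lt.2 ((hx (i + 1)).2 _ (Finset.mem_union_right _ (Finset.mem_image_of_mem W
      (Finset.mem_filter.2 ⟨Finset.mem_range.2 i.lt_succ_self, hq0, hqC⟩)))) hqx
  have hlim : ∀ g : R3 → ℝ, Continuous g →
      Tendsto (fun n => ∫ x in body (F n), g x) atTop (𝓝 (∫ x in C, g x)) := by
    intro g hg
    have := tendsto_setIntegral_of_antitone (μ := volume) (f := g)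
      (fun n => (isClosed_body (F n)).measurableSet) hanti ⟨0, (hgood 0).integrableOn hg⟩
    rwa [hinter] at this
  have hV : Tendsto (fun n => vol (F n)) atTop (𝓝 (volume.real C)) := by
    simpa [vol] using hlim (fun _ => (1 : ℝ)) continuous_const
  exact le_of_tendsto_of_tendsto'
    ((tendsto_finsetProd _ fun k _ => hlim (fun x => x k) (continuous_apply k)).const_mul 8)
    (hV.pow 4) fun n => eight_le_G (F n) (hgood n)

end Vale.Agent.P254u
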