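import Mathlib

/-!
# P254: down-closed polytopes in three dimensions

The bodies `{x ≥ 0 : w ⬝ x ≤ 1 for w ∈ F}`, their volume and first moments, and the behaviour of
these under permutations and positive rescalings of the coordinates.
-/

namespace Vale.Agent.P254u

open MeasureTheory Set

/-- Three dimensional coordinate space. -/
abbrev R3 := Fin 3 → ℝ

/-- The dot product. -/
def dot (w x : R3) : ℝ := w 0 * x 0 + w 1 * x 1 + w 2 * x 2

theorem dot_sum (w x : R3) : dot w x = ∑ k, w k * x k := by
  simp [dot, Fin.sum_univ_three]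

@[fun_prop]
theorem continuous_dot (w : R3) : Continuous (dot w) := by
  unfold dot; fun_prop

theorem dot_mono {w x y : R3} (hw : ∀ k, 0 ≤ w k) (h : ∀ k, x k ≤ y k) : dot w x ≤ dot w y := by
  rw [dot_sum, dot_sum]
  exact Finset.sum_le_sum fun k _ => mul_le_mul_of_nonneg_left (h k) (hw k)

/-- The polytope cut out of the orthant by the constraints in `F`. -/
def body (F : Finset R3) : Set R3 := {x | (∀ k, 0 ≤ x k) ∧ ∀ w ∈ F, dot w x ≤ 1}

/-- Nonnegative normals, and every coordinate is bounded. -/
structure Good (F : Finset R3) : Prop where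
  nonneg : ∀ w ∈ F, ∀ k, 0 ≤ w k
  cap : ∀ k, ∃ w ∈ F, 0 < w k

/-- The volume. -/
noncomputable def vol (F : Finset R3) : ℝ := volume.real (body F)

/-- The first moments. -/
noncomputable def mom (F : Finset R3) (k : Fin 3) : ℝ := ∫ x in body F, x k

/-- The ratio to be minimised. -/
noncomputable def G (F : Finset R3) : ℝ := vol F ^ 4 / ∏ k, mom F k

theorem isClosed_body (F : Finset R3) : IsClosed (body F) := by
  have e : body F = (⋂ k, {x : R3 | 0 ≤ x k}) ∩ ⋂ w ∈ F, {x | dot w x ≤ 1} := by
    ext x; simp [body]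
  rw [e]
  exact (isClosed_iInter fun k => isClosed_le continuous_const (continuous_apply k)).inter
    (isClosed_biInter fun w _ => isClosed_le (continuous_dot w) continuous_const)

theorem Good.bound {F : Finset R3} (h : Good F) : ∃ R : ℝ, 0 < R ∧ ∀ x ∈ body F, ∀ k, x k ≤ R := by
  choose w hw hp using h.cap
  refine ⟨∑ k, (w k k)⁻¹, Finset.sum_pos (fun k _ => inv_pos.2 (hp k)) Finset.univ_nonempty,
    fun x hx k => ?_⟩
  have h1 : w k k * x k ≤ 1 := by
    refine le_trans ?_ (hx.2 _ (hw k))
    rw [dot_sum]
    exact Finset.single_le_sum (f := fun j => w k j * x j)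
      (fun j _ => mul_nonneg (h.nonneg _ (hw k) j) (hx.1 j)) (Finset.mem_univ k)
  have h2 : x k ≤ (w k k)⁻¹ := by
    rw [← one_div, le_div_iff₀ (hp k)]; linarith
  exact h2.trans (Finset.single_le_sum (f := fun j => (w j j)⁻¹)
    (fun j _ => (inv_pos.2 (hp j)).le) (Finset.mem_univ k))

theorem Good.isCompact {F : Finset R3} (h : Good F) : IsCompact (body F) := by
  obtain ⟨R, -, hR⟩ := h.bound
  exact (isCompact_Icc (a := (0 : R3)) (b := fun _ => R)).of_isClosed_subset (isClosed_body F)
    fun x hx => ⟨hx.1, hR x hx⟩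

theorem Good.integrableOn {F : Finset R3} (h : Good F) {g : R3 → ℝ} (hg : Continuous g) :
    IntegrableOn g (body F) volume :=
  hg.continuousOn.integrableOn_compact h.isCompact

/-- The open set of strictly feasible points. -/
def inner (F : Finset R3) : Set R3 := {x | (∀ k, 0 < x k) ∧ ∀ w ∈ F, dot w x < 1}

theorem isOpen_inner (F : Finset R3) : IsOpen (inner F) := by
  have e : inner F = (⋂ k, {x : R3 | 0 < x k}) ∩ ⋂ w ∈ F, {x | dot w x < 1} := by
    ext x; simp [inner]
  rw [e]
  exact (isOpen_iInter_of_finite fun k => isOpen_lt continuous_const (continuous_apply k)).inter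
    (isOpen_biInter_finset fun w _ => isOpen_lt (continuous_dot w) continuous_const)

theorem inner_subset (F : Finset R3) : inner F ⊆ body F :=
  fun _ hx => ⟨fun k => (hx.1 k).le, fun w hw => (hx.2 w hw).le⟩

theorem inner_nonempty (F : Finset R3) : (inner F).Nonempty := by
  set S : ℝ := 1 + ∑ w ∈ F, |dot w 1| with hS
  have hs : 0 < S := by positivity
  refine ⟨fun _ => 1 / S, fun k => by positivity, fun w hw => ?_⟩
  have h1 : dot w (fun _ => 1 / S) = dot w 1 / S := by
    simp only [dot, Pi.one_apply]; ring
  rw [h1, div_lt_one hs, hS]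
  have := Finset.single_le_sum (f := fun w => |dot w 1|) (fun w _ => abs_nonneg _) hw
  linarith [le_abs_self (dot w 1)]

theorem Good.vol_pos {F : Finset R3} (h : Good F) : 0 < vol F := by
  have h1 : (0 : ENNReal) < volume (body F) :=
    ((isOpen_inner F).measure_pos volume (inner_nonempty F)).trans_le (measure_mono (inner_subset F))
  exact ENNReal.toReal_pos h1.ne' h.isCompact.measure_lt_top.ne

theorem Good.mom_pos {F : Finset R3} (h : Good F) (k : Fin 3) : 0 < mom F k := by
  rw [mom, setIntegral_pos_iff_support_of_nonneg_ae]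
  · refine ((isOpen_inner F).measure_pos volume (inner_nonempty F)).trans_le (measure_mono ?_)
    exact fun x hx => ⟨(hx.1 k).ne', inner_subset F hx⟩
  · filter_upwards [ae_restrict_mem (isClosed_body F).measurableSet] with x hx using hx.1 k
  · exact h.integrableOn (continuous_apply k)

theorem Good.prod_mom_pos {F : Finset R3} (h : Good F) : 0 < ∏ k, mom F k :=
  Finset.prod_pos fun k _ => h.mom_pos k

/-! ### Permutations of the coordinates -/

/-- Constraints with permuted coordinates. -/
noncomputable def permF (σ : Equiv.Perm (Fin 3)) (F : Finset R3) : Finset R3 :=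
  F.image fun w k => w (σ k)

theorem mem_permF {σ : Equiv.Perm (Fin 3)} {F : Finset R3} {w : R3} :
    w ∈ permF σ F ↔ (fun k => w (σ.symm k)) ∈ F := by
  simp only [permF, Finset.mem_image]
  constructor
  · rintro ⟨v, hv, rfl⟩
    simpa using hv
  · exact fun h => ⟨_, h, by simp⟩

theorem card_permF (σ : Equiv.Perm (Fin 3)) (F : Finset R3) : (permF σ F).card = F.card := by
  refine Finset.card_image_of_injective _ fun v w h => funext fun k => ?_
  simpa using congrFun h (σ.symm k)

theorem dot_perm (σ : Equiv.Perm (Fin 3)) (w x : R3) :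
    dot (fun k => w (σ k)) (fun k => x (σ k)) = dot w x := by
  simp only [dot_sum]
  exact Equiv.sum_comp σ fun k => w k * x k

theorem permPres (σ : Equiv.Perm (Fin 3)) :
    MeasurePreserving (fun x : R3 => fun k => x (σ k)) volume volume := by
  have h := volume_measurePreserving_piCongrLeft (fun _ : Fin 3 => ℝ) σ.symm
  convert h using 1
  funext x k
  simp [MeasurableEquiv.piCongrLeft, Equiv.piCongrLeft, Equiv.piCongrLeft']

theorem permEmb (σ : Equiv.Perm (Fin 3)) :
    MeasurableEmbedding (fun x : R3 => fun k => x (σ k)) := by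
  have h := (MeasurableEquiv.piCongrLeft (fun _ : Fin 3 => ℝ) σ.symm).measurableEmbedding
  convert h using 1
  funext x k
  simp [MeasurableEquiv.piCongrLeft, Equiv.piCongrLeft, Equiv.piCongrLeft']

theorem perm_preimage (σ : Equiv.Perm (Fin 3)) (F : Finset R3) :
    (fun x : R3 => fun k => x (σ k)) ⁻¹' body (permF σ F) = body F := by
  ext x
  simp only [mem_preimage, body, mem_ofPred_eq, permF, Finset.forall_mem_image, dot_perm]
  exact and_congr_left fun _ => ⟨fun h k => by simpa using h (σ.symm k), fun h k => h _⟩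

theorem vol_perm (σ : Equiv.Perm (Fin 3)) (F : Finset R3) : vol (permF σ F) = vol F := by
  rw [vol, vol, ← perm_preimage σ F, measureReal_def, measureReal_def,
    (permPres σ).measure_preimage_emb (permEmb σ)]

theorem mom_perm (σ : Equiv.Perm (Fin 3)) (F : Finset R3) (k : Fin 3) :
    mom (permF σ F) k = mom F (σ k) := by
  rw [mom, mom, ← (permPres σ).setIntegral_preimage_emb (permEmb σ), perm_preimage]

theorem Good.perm {F : Finset R3} (h : Good F) (σ : Equiv.Perm (Fin 3)) : Good (permF σ F) := by
  refine ⟨fun w hw k => ?_, fun k => ?_⟩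
  · simpa using h.nonneg _ (mem_permF.1 hw) (σ k)
  · obtain ⟨w, hw, hp⟩ := h.cap (σ k)
    exact ⟨fun j => w (σ j), Finset.mem_image_of_mem _ hw, hp⟩

theorem G_perm (σ : Equiv.Perm (Fin 3)) (F : Finset R3) : G (permF σ F) = G F := by
  simp only [G, vol_perm, mom_perm]
  rw [Equiv.prod_comp σ (mom F)]

/-! ### Rescaling the coordinates -/

/-- Constraints after dividing the coordinates by `s`. -/
noncomputable def scaleF (s : R3) (F : Finset R3) : Finset R3 := F.image fun w k => w k * s k

theorem dot_scale (s w x : R3) : dot (fun k => w k * s k) x = dot w (fun k => s k * x k) := by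
  simp only [dot]; ring

theorem map_diag {s : R3} (hs : ∀ k, 0 < s k) :
    Measure.map (fun x : R3 => fun k => s k * x k) volume
      = ENNReal.ofReal (∏ k, s k)⁻¹ • (volume : Measure R3) := by
  have hd : (Matrix.diagonal s).det ≠ 0 := by
    rw [Matrix.det_diagonal]; exact (Finset.prod_pos fun k _ => hs k).ne'
  have h := Real.map_matrix_volume_pi_eq_smul_volume_pi hd
  have e : (Matrix.toLin' (Matrix.diagonal s) : R3 → R3) = fun x => fun k => s k * x k := by
    funext x k; simp [Matrix.mulVec_diagonal]
  rw [e, Matrix.det_diagonal, abs_of_pos (by exact inv_pos.2 (Finset.prod_pos fun k _ => hs k))] at h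
  exact h

theorem diagEmb {s : R3} (hs : ∀ k, 0 < s k) :
    MeasurableEmbedding (fun x : R3 => fun k => s k * x k) := by
  refine Continuous.measurableEmbedding (by fun_prop) fun x y h => funext fun k => ?_
  exact mul_left_cancel₀ (hs k).ne' (congrFun h k)

theorem scale_preimage {s : R3} (hs : ∀ k, 0 < s k) (F : Finset R3) :
    (fun x : R3 => fun k => s k * x k) ⁻¹' body F = body (scaleF s F) := by
  ext x
  simp only [mem_preimage, body, mem_ofPred_eq, scaleF, Finset.forall_mem_image, dot_scale]
  exact and_congr_left fun _ => forall_congr' fun k => by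
    rw [mul_nonneg_iff_of_pos_left (hs k)]

theorem integral_scale {s : R3} (hs : ∀ k, 0 < s k) (F : Finset R3) (g : R3 → ℝ) :
    ∫ x in body (scaleF s F), g (fun k => s k * x k) = (∏ k, s k)⁻¹ * ∫ x in body F, g x := by
  rw [← scale_preimage hs F, ← (diagEmb hs).setIntegral_map g, map_diag hs,
    Measure.restrict_smul, integral_smul_measure, ENNReal.toReal_ofReal
      (inv_nonneg.2 (Finset.prod_nonneg fun k _ => (hs k).le)), smul_eq_mul]

theorem vol_scale {s : R3} (hs : ∀ k, 0 < s k) (F : Finset R3) :
    vol (scaleF s F) = (∏ k, s k)⁻¹ * vol F := by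
  have := integral_scale hs F fun _ => (1 : ℝ)
  simpa [vol] using this

theorem mom_scale {s : R3} (hs : ∀ k, 0 < s k) (F : Finset R3) (k : Fin 3) :
    mom (scaleF s F) k = (∏ j, s j)⁻¹ * (mom F k / s k) := by
  have := integral_scale hs F fun x => x k
  simp only [integral_const_mul] at this
  rw [mom, mom, eq_comm, ← mul_div_assoc, ← this, mul_div_assoc]
  field_simp [(hs k).ne']

theorem Good.scale {F : Finset R3} (h : Good F) {s : R3} (hs : ∀ k, 0 < s k) :
    Good (scaleF s F) := by
  refine ⟨fun w hw k => ?_, fun k => ?_⟩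
  · obtain ⟨v, hv, rfl⟩ := Finset.mem_image.1 hw
    exact mul_nonneg (h.nonneg v hv k) (hs k).le
  · obtain ⟨w, hw, hp⟩ := h.cap k
    exact ⟨_, Finset.mem_image_of_mem _ hw, mul_pos hp (hs k)⟩

theorem card_scaleF {s : R3} (hs : ∀ k, 0 < s k) (F : Finset R3) :
    (scaleF s F).card = F.card :=
  Finset.card_image_of_injective _ fun _ _ h =>
    funext fun k => mul_right_cancel₀ (hs k).ne' (congrFun h k)

theorem G_scale {s : R3} (hs : ∀ k, 0 < s k) (F : Finset R3) : G (scaleF s F) = G F := by
  have hP : (∏ k, s k) ≠ 0 := (Finset.prod_pos fun k _ => hs k).ne'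
  simp only [G, vol_scale hs, mom_scale hs, Fin.prod_univ_three] at hP ⊢
  field_simp
  rw [mul_assoc (s 0 * s 1 * s 2) (mom F 0), mul_assoc (s 0 * s 1 * s 2),
    mul_div_mul_left _ _ hP]

end Vale.Agent.P254u
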