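import Vale.Agent.P254u.Pyramid
import Vale.Agent.P254.Simplex

/-!
# P254: every minimiser has volume at least `8` at centroid `(1, 1, 1)`
-/

namespace Vale.Agent.P254u

open MeasureTheory Set
open scoped Pointwise

variable {N : ℕ} {F : Finset R3} {w : R3}

/-- The exchange of the first two coordinates. -/
def s01 : Equiv.Perm (Fin 3) := Equiv.swap 0 1

/-- A constraint with the first two coordinates exchanged. -/
def fl (x : R3) : R3 := fun k => x (s01 k)

@[simp] theorem fl_zero (x : R3) : fl x 0 = x 1 := by simp [fl, s01]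
@[simp] theorem fl_one (x : R3) : fl x 1 = x 0 := by simp [fl, s01]
@[simp] theorem fl_two (x : R3) : fl x 2 = x 2 := by simp [fl, s01, Equiv.swap_apply_def]

theorem mem_fl {x : R3} (hx : x ∈ F) : fl x ∈ permF s01 F := Finset.mem_image_of_mem _ hx

theorem exists_fl {x : R3} (hx : x ∈ permF s01 F) : ∃ u ∈ F, x = fl u := by
  obtain ⟨u, hu, rfl⟩ := Finset.mem_image.1 hx
  exact ⟨u, hu, rfl⟩

namespace Strip

theorem flip (h : Strip N F w) : Strip N (permF s01 F) (fl w) :=
  ⟨h.opt.perm s01, mem_fl h.mem, by simpa using h.p1, by simpa using h.p0, by simpa using h.p2⟩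

theorem flip_mem (h : Strip N F w) {m : ℝ} (hm : m ∈ JJ F w) :
    uu w m ∈ JJ (permF s01 F) (fl w) ∧ uu (fl w) (uu w m) = m ∧
      LL (permF s01 F) (fl w) (uu w m) = LL F w m := by
  have hg := h.opt.good
  have hu : uu (fl w) (uu w m) = m := by
    have := h.p0.ne'
    have := h.p1.ne'
    simp only [uu, fl_zero, fl_one]
    field_simp
    ring
  have hell : ∀ u : R3, ell (fl u) (uu w m) m = ell u m (uu w m) := fun u => by
    simp only [ell, fl_zero, fl_one, fl_two]; ring
  have hL : LL (permF s01 F) (fl w) (uu w m) = LL F w m := by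
    rw [LL, hu]
    refine le_antisymm ?_ ?_
    · obtain ⟨u, hu', he⟩ := exists_Lh hg m (uu w m)
      rw [show LL F w m = _ from he, ← hell]
      exact Lh_le (mem_top.2 ⟨mem_fl (mem_top.1 hu').1, by simpa using (mem_top.1 hu').2⟩) _ _
    · obtain ⟨x, hx, he⟩ := exists_Lh (hg.perm s01) (uu w m) m
      obtain ⟨u, hu', rfl⟩ := exists_fl (mem_top.1 hx).1
      rw [he, hell]
      exact Lh_le (mem_top.2 ⟨hu', by simpa using (mem_top.1 hx).2⟩) _ _
  refine ⟨⟨hm.2.1, by rw [hu]; exact hm.1, fun x hx hx2 hne => ?_, by rw [hL]; exact hm.2.2.2⟩,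
    hu, hL⟩
  obtain ⟨u, hu', rfl⟩ := exists_fl hx
  rw [hu, fl_zero, fl_one]
  have := hm.2.2.1 u hu' (by simpa using hx2) fun e => hne (congrArg fl e)
  linarith

theorem get_cap (h : Strip N F w) (hnf : NoFull F) (hc : F.card < N) (hlt : vol F < 8) {m : ℝ}
    (hm : m ∈ JJ F w) :
    ∃ z ∈ top F, z 0 = 0 ∧ z 1 = 0 ∧ LL F w m = 1 / z 2 ∧ LL F w m = ell z m (uu w m) := by
  obtain ⟨z, hz, he⟩ := exists_Lh h.opt.good m (uu w m)
  have nn := h.opt.good.nonneg z (mem_top.1 hz).1
  by_cases h0 : z 0 = 0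
  · by_cases h1 : z 1 = 0
    · exact ⟨z, hz, h0, h1, by rw [LL, he, ell, h0, h1]; simp, he⟩
    · exfalso
      obtain ⟨m1, m2, m3⟩ := h.flip_mem hm
      have := Edge.vol_ge (F := permF s01 F) (w := fl w) (v := fl z) (m := uu w m)
        ⟨h.flip, hnf.perm _, by rw [card_permF]; exact hc,
          mem_top.2 ⟨mem_fl (mem_top.1 hz).1, by simpa using (mem_top.1 hz).2⟩, by simpa using h0,
          by simpa using lt_of_le_of_ne (nn 1) (Ne.symm h1), m1, by
            rw [m3, m2, show LL F w m = _ from he]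
            simp only [ell, fl_zero, fl_one, fl_two]; ring⟩
      rw [vol_perm] at this
      linarith
  · exfalso
    have h1 : z 1 = 0 := (hnf.top_type hz).resolve_left h0
    have := Edge.vol_ge (F := F) (w := w) (v := z) (m := m)
      ⟨h, hnf, hc, hz, h1, lt_of_le_of_ne (nn 0) (Ne.symm h0), hm, he⟩
    linarith

theorem exists_mem (h : Strip N F w) : ∃ m, m ∈ JJ F w := by
  rw [h.JJ_eq.2]; exact nonempty_Ioo.2 h.lo_lt_hi

theorem no_ac (h : Strip N F w) (hnf : NoFull F) (hc : F.card < N) (hlt : vol F < 8) {v : R3}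
    (hv : v ∈ F) (hv0 : 0 < v 0) (hv1 : v 1 = 0) (hv2 : 0 < v 2) : False := by
  have h' : Strip N (permF s12 F) (sw v) :=
    ⟨h.opt.perm s12, mem_sw hv, by simpa using hv0, by simpa using hv2, by simpa using hv1⟩
  obtain ⟨a, ha⟩ := h.exists_mem
  obtain ⟨b, hb⟩ := h'.exists_mem
  obtain ⟨zc, hzc, c0, c1, hLc, -⟩ := h.get_cap hnf hc hlt ha
  obtain ⟨zb', hzb', b0, b1, hLb, -⟩ := h'.get_cap (hnf.perm _) (by rwa [card_permF])
    (by rwa [vol_perm]) hb
  obtain ⟨zb, hzb, rfl⟩ := exists_sw (mem_top.1 hzb').1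
  simp only [sw_zero, sw_one, sw_two] at b0 b1 hLb
  have hb1 : 0 < zb 1 := by simpa using (mem_top.1 hzb').2
  have hc2 := (mem_top.1 hzc).2
  have e1 : uu w a < 1 / zb 1 := by
    have := ha.2.2.1 zb hzb b1 fun e => by rw [e] at b0; exact h.p0.ne' b0
    rw [b0] at this
    rw [lt_div_iff₀ hb1]; linarith
  have e2 : 1 / zc 2 ≤ uu (sw v) a := by
    rw [← hLc]
    refine (Lh_le (mem_top.2 ⟨hv, hv2⟩) a (uu w a)).trans_eq ?_
    simp [ell, uu, hv1]
  have e3 : uu (sw v) b < 1 / zc 2 := by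
    have := hb.2.2.1 (sw zc) (mem_sw (mem_top.1 hzc).1) (by simpa using c1) fun e => by
      have := congrFun e 0
      simp only [sw_zero, c0] at this
      exact hv0.ne' this.symm
    simp only [sw_zero, sw_one, c0] at this
    rw [lt_div_iff₀ hc2]; linarith
  have e4 : 1 / zb 1 ≤ uu w b := by
    rw [← hLb]
    refine (Lh_le (mem_top.2 ⟨mem_sw h.mem, by simpa using h.p1⟩) b (uu (sw v) b)).trans_eq ?_
    simp [ell, uu, h.p2]
  have f1 : uu w a < uu w b := lt_of_lt_of_le e1 e4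
  have f2 : uu (sw v) b < uu (sw v) a := lt_of_lt_of_le e3 e2
  simp only [uu, div_lt_div_iff_of_pos_right h.p1] at f1
  simp only [uu, sw_zero, sw_one, div_lt_div_iff_of_pos_right hv2] at f2
  nlinarith [h.p0, hv0]

theorem others_cap (h : Strip N F w) (hnf : NoFull F) (hc : F.card < N) (hlt : vol F < 8) {u : R3}
    (hu : u ∈ F) (hne : u ≠ w) :
    (u 1 = 0 ∧ u 2 = 0) ∨ (u 0 = 0 ∧ u 2 = 0) ∨ (u 0 = 0 ∧ u 1 = 0) := by
  have nn := h.opt.good.nonneg u hu
  have hpos : ∀ k, u k ≠ 0 → 0 < u k := fun k hk => lt_of_le_of_ne (nn k) (Ne.symm hk)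
  obtain ⟨k, hk⟩ := hnf u hu
  by_cases h0 : u 0 = 0
  · by_cases h1 : u 1 = 0
    · exact Or.inr (Or.inr ⟨h0, h1⟩)
    by_cases h2 : u 2 = 0
    · exact Or.inr (Or.inl ⟨h0, h2⟩)
    · exact (h.flip.no_ac (hnf.perm _) (by rwa [card_permF]) (by rwa [vol_perm]) (mem_fl hu)
        (by simpa using hpos 1 h1) (by simpa using h0) (by simpa using hpos 2 h2)).elim
  · by_cases h1 : u 1 = 0
    · by_cases h2 : u 2 = 0
      · exact Or.inl ⟨h1, h2⟩
      · exact (h.no_ac hnf hc hlt hu (hpos 0 h0) h1 (hpos 2 h2)).elim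
    · have h2 : u 2 = 0 := by
        fin_cases k
        · exact absurd hk h0
        · exact absurd hk h1
        · exact hk
      exact absurd (Strip.unique ⟨h.opt, hu, hpos 0 h0, hpos 1 h1, h2⟩ h hnf) hne

theorem prism_values (h : Strip N F w) (hnf : NoFull F) (hc : F.card < N) (hlt : vol F < 8) :
    w 0 = 1 / 3 ∧ w 1 = 1 / 3 ∧
      ∃ z ∈ F, z 0 = 0 ∧ z 1 = 0 ∧ z 2 = 1 / 2 ∧ ∀ u ∈ F, u ≠ z → u 2 = 0 := by
  obtain ⟨m, hm⟩ := h.exists_mem
  obtain ⟨z, hz, z0, z1, hL, he⟩ := h.get_cap hnf hc hlt hm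
  have hz2 := (mem_top.1 hz).2
  have hoth : ∀ u ∈ F, u ≠ z → u 2 = 0 := by
    intro u hu hne
    rcases eq_or_ne u w with rfl | huw
    · exact h.p2
    rcases h.others_cap hnf hc hlt hu huw with ⟨_, e⟩ | ⟨_, e⟩ | ⟨e0, e1⟩
    · exact e
    · exact e
    · refine absurd (supp_inj h.opt hnf hu (mem_top.1 hz).1 fun j => ?_) hne
      have h2 : u 2 ≠ 0 := fun e2 => by
        obtain ⟨x, -, hx, -⟩ := h.opt.irred u hu
        simp [dot, e0, e1, e2] at hx
      fin_cases j
      · exact ⟨fun _ => z0, fun _ => e0⟩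
      · exact ⟨fun _ => z1, fun _ => e1⟩
      · exact ⟨fun e => absurd e h2, fun e => absurd e hz2.ne'⟩
  have hM : 1 / z 2 = 2 := cap_mid h.opt.good h.opt.cent (mem_top.1 hz).1 hz2 (fun j hj => by
    fin_cases j
    · exact z0
    · exact z1
    · exact absurd rfl hj) hoth
  have hp := h.slope_eq hc hz hm he
  have hr := h.rho_zero hc (Ioo_subset_Icc_self (h.mem_JJ.1 hm))
  simp only [slope', z0, z1, zero_mul, sub_zero, neg_zero, zero_div] at hp
  rw [rho, hL, hM] at hr
  have h1 := h.p1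
  have e1 : w 0 = w 1 := by
    have : w 0 / w 1 = 1 := by linarith
    rwa [div_eq_one_iff_eq h1.ne'] at this
  have hu : uu w m = 3 - m := by linarith
  rw [uu, e1, div_eq_iff h1.ne'] at hu
  exact ⟨by linarith, by linarith, z, (mem_top.1 hz).1, z0, z1,
    by rw [div_eq_iff hz2.ne'] at hM; linarith, hoth⟩

theorem prism_no_cap (h : Strip N F w) (hnf : NoFull F) (hc : F.card < N) (hlt : vol F < 8)
    {u : R3} (hu : u ∈ F) (hne : u ≠ w) : u 0 = 0 := by
  by_contra h0
  obtain ⟨a0, a1, z, hz, z0, z1, z2, hoth⟩ := h.prism_values hnf hc hlt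
  have hcap : u 1 = 0 ∧ u 2 = 0 := by
    rcases h.others_cap hnf hc hlt hu hne with e | ⟨e, -⟩ | ⟨e, -⟩
    exacts [e, absurd e h0, absurd e h0]
  obtain ⟨u1, u2⟩ := hcap
  have u0 : 0 < u 0 := lt_of_le_of_ne (h.opt.good.nonneg u hu 0) (Ne.symm h0)
  set A := 1 / u 0 with hA
  obtain ⟨x, hx, hxd, hxo⟩ := h.opt.irred u hu
  have hxA : x 0 = A := by
    rw [hA, eq_div_iff u0.ne']
    simp only [dot, u1, u2] at hxd; linarith
  have hA3 : A < 3 := by
    have := hxo w h.mem (Ne.symm hne)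
    simp only [dot, h.p2, a0, a1] at this
    linarith [hx 1]
  obtain ⟨m, hm⟩ := h.exists_mem
  have hmA : m < A := by
    have := hm.2.2.1 u hu u2 hne
    rw [u1] at this
    rw [hA, lt_div_iff₀ u0]; linarith
  have hum : uu w m = 3 - m := by simp only [uu, a0, a1]; ring
  have hzu : z ≠ u := fun e => by rw [← e] at h0; exact h0 z0
  set u' : R3 := fl u with hu'
  refine rect_false (h.opt.perm s01) (mem_fl hu) (by simpa using u0) (by simpa using u1)
    (by simpa using u2) (k₁ := 3 - A) (k₂ := 2) (by linarith) (by norm_num) ?_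
    (by rw [fl_one, ← hA]; linarith)
  ext ⟨b, c⟩
  have hub : ub u' (b, c) = A := by simp [hu', ub, u1, u2, hA]
  have hdot : ∀ v : R3, dot (fl v) (P254u.mk (b, c) A) = v 0 * A + v 1 * b + v 2 * c := by
    intro v; simp [dot]; ring
  simp only [mem_prod, mem_Ioo, act, mem_ofPred_eq, ← hu', hub]
  constructor
  · rintro ⟨hb, hcp, -, ho⟩
    have o1 := ho (fl w) (mem_fl h.mem) fun e => hne (funext fun j => by
      simpa [hu', fl] using (congrFun e (s01.symm j)).symm)
    have o2 := ho (fl z) (mem_fl hz) fun e => hzu (funext fun j => by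
      simpa [hu', fl] using congrFun e (s01.symm j))
    rw [hdot, h.p2, a0, a1] at o1
    rw [hdot, z0, z1, z2] at o2
    exact ⟨⟨hb, by linarith⟩, hcp, by linarith⟩
  · rintro ⟨⟨hb, hb'⟩, hcp, hc'⟩
    refine ⟨hb, hcp, by positivity, fun x' hx' hne' => ?_⟩
    obtain ⟨v, hv, rfl⟩ := exists_fl hx'
    rw [hdot]
    rcases eq_or_ne v w with rfl | hvw
    · rw [h.p2, a0, a1]; linarith
    rcases eq_or_ne v z with rfl | hvz
    · rw [z0, z1, z2]; linarith
    have hvu : v ≠ u := fun e => hne' (by rw [e, hu'])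
    have v2 := hoth v hv hvz
    rcases h.others_cap hnf hc hlt hv hvw with ⟨v1, -⟩ | ⟨v0, -⟩ | ⟨v0, v1⟩
    · refine absurd (supp_inj h.opt hnf hv hu fun j => ?_) hvu
      have hv0 : v 0 ≠ 0 := fun e => by
        obtain ⟨y, -, hy, -⟩ := h.opt.irred v hv
        simp [dot, e, v1, v2] at hy
      fin_cases j
      · exact ⟨fun e => absurd e hv0, fun e => absurd e h0⟩
      · exact ⟨fun _ => u1, fun _ => v1⟩
      · exact ⟨fun _ => u2, fun _ => v2⟩
    · have := hm.2.2.1 v hv v2 hvw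
      rw [v0, hum] at this
      rw [v0, v2]
      nlinarith [mul_le_mul_of_nonneg_left (show b ≤ 3 - m by linarith)
        (h.opt.good.nonneg v hv 1)]
    · rw [v0, v1, v2]; norm_num

theorem vol_ge (h : Strip N F w) (hnf : NoFull F) (hc : F.card < N) : 8 ≤ vol F := by
  by_contra hlt
  push Not at hlt
  obtain ⟨a0, a1, z, hz, z0, z1, z2, hoth⟩ := h.prism_values hnf hc hlt
  have hF : F = {w, z} := by
    refine Finset.Subset.antisymm (fun u hu => ?_) (fun u hu => ?_)
    · by_contra hno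
      simp only [Finset.mem_insert, Finset.mem_singleton, not_or] at hno
      have u2 := hoth u hu hno.2
      have u0 := h.prism_no_cap hnf hc hlt hu hno.1
      have u1 := h.flip.prism_no_cap (hnf.perm _) (by rwa [card_permF]) (by rwa [vol_perm])
        (mem_fl hu) fun e => hno.1 (funext fun j => by simpa [fl] using congrFun e (s01.symm j))
      rw [fl_zero] at u1
      obtain ⟨y, -, hy, -⟩ := h.opt.irred u hu
      simp [dot, u0, u1, u2] at hy
    · simp only [Finset.mem_insert, Finset.mem_singleton] at hu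
      rcases hu with rfl | rfl
      exacts [h.mem, hz]
  rw [hF, vol_two h.p0 h.p1 h.p2 z0.ge (z0.trans_le h.p0.le) z1 (by rw [z2]; norm_num),
    a0, a1, z0, z2] at hlt
  norm_num at hlt

end Strip

theorem vol_full (h : Opt N F) {w : R3} (hw : w ∈ F) (hp : ∀ k, 0 < w k) : 8 ≤ vol F := by
  have hq := full_plane h hw hp
  have e : body F = P254.dilSimplex 3 4 := by
    ext x
    rw [full_unique h hw hp]
    simp only [body, P254.dilSimplex, mem_ofPred_eq, Finset.mem_singleton, forall_eq, dot_sum, hq,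
      Fin.sum_univ_three]
    constructor <;> rintro ⟨a, b⟩ <;> exact ⟨a, by linarith⟩
  rw [vol, e, ← P254.smul_simplex (by norm_num : (0 : ℝ) < 4), measureReal_def,
    Measure.addHaar_smul, ENNReal.toReal_mul, ← measureReal_def, P254.simplex_vol,
    ENNReal.toReal_ofReal (abs_nonneg _), Module.finrank_fintype_fun_eq_card, Fintype.card_fin]
  norm_num [Nat.factorial]

theorem vol_box (h : Opt N F)
    (hcap : ∀ u ∈ F, ∃ k, 0 < u k ∧ ∀ j, j ≠ k → u j = 0) (hnf : NoFull F) : 8 ≤ vol F := by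
  have hg := h.good
  have hone : ∀ k, ∃ z ∈ F, z k = 1 / 2 ∧ (∀ j, j ≠ k → z j = 0) ∧
      ∀ u ∈ F, u ≠ z → u k = 0 := by
    intro k
    obtain ⟨z, hz, hzk⟩ := hg.cap k
    obtain ⟨i, -, hi⟩ := hcap z hz
    have hik : i = k := by
      by_contra hne
      exact hzk.ne' (hi k (Ne.symm hne))
    subst hik
    have hoth : ∀ u ∈ F, u ≠ z → u i = 0 := by
      intro u hu hne
      by_contra hui
      obtain ⟨j, hj, hjo⟩ := hcap u hu
      have hij : i = j := by
        by_contra hne'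
        exact hui (hjo i hne')
      subst hij
      refine hne (supp_inj h hnf hu hz fun l => ?_)
      rcases eq_or_ne l i with rfl | hl
      · exact ⟨fun e => absurd e hj.ne', fun e => absurd e hzk.ne'⟩
      · exact ⟨fun _ => hi l hl, fun _ => hjo l hl⟩
    have := cap_mid hg h.cent hz hzk hi hoth
    rw [div_eq_iff hzk.ne'] at this
    exact ⟨z, hz, by linarith, hi, hoth⟩
  have hsub : Icc (0 : R3) (fun _ => 2) ⊆ body F := by
    intro x hx
    refine ⟨hx.1, fun u hu => ?_⟩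
    obtain ⟨k, hk, hko⟩ := hcap u hu
    obtain ⟨z, hz, hzk, hzo, hoth⟩ := hone k
    have huz : u = z := by
      by_contra hne
      exact hk.ne' (hoth u hu hne)
    rw [dot_sum, Finset.sum_eq_single k (fun j _ hj => by simp [hko j hj]) (by simp), huz, hzk]
    have := hx.2 k
    linarith
  have h1 : volume.real (Icc (0 : R3) fun _ => 2) ≤ vol F :=
    measureReal_mono hsub hg.isCompact.measure_lt_top.ne
  rw [measureReal_def, show (0 : R3) = fun _ => 0 from rfl,
    Real.volume_Icc_pi_toReal (fun _ => zero_le_two)] at h1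
  norm_num [Fin.prod_univ_three] at h1
  linarith

theorem Opt.vol_ge (h : Opt N F) (hN : 7 ≤ N) : 8 ≤ vol F := by
  have pos : ∀ {u : R3}, u ∈ F → ∀ k, u k ≠ 0 → 0 < u k := fun {u} hu k hk =>
    lt_of_le_of_ne (h.good.nonneg u hu k) (Ne.symm hk)
  by_cases hnf : NoFull F
  · have hc : F.card < N := lt_of_le_of_lt (card_le_six h hnf) (by omega)
    by_cases hcap : ∀ u ∈ F, ∃ k, 0 < u k ∧ ∀ j, j ≠ k → u j = 0
    · exact vol_box h hcap hnf
    push Not at hcap
    obtain ⟨u, hu, hu2⟩ := hcap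
    obtain ⟨i, hi⟩ := hnf u hu
    set σ : Equiv.Perm (Fin 3) := Equiv.swap 2 i with hσ
    have hmem : (fun k => u (σ k)) ∈ permF σ F := Finset.mem_image_of_mem _ hu
    have hs2 : u (σ 2) = 0 := by simpa [hσ] using hi
    have hex : ∀ k, k ≠ 2 → u (σ k) ≠ 0 := by
      intro k hk hk0
      obtain ⟨x, -, hx, -⟩ := (h.perm σ).irred _ hmem
      by_cases hall : ∀ j, j ≠ 2 → u (σ j) = 0
      · simp [dot, hall 0 (by decide), hall 1 (by decide), hs2] at hx
      push Not at hall
      obtain ⟨j, hj2, hj⟩ := hall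
      obtain ⟨l, hl, hlne⟩ := hu2 (σ j) (pos hu _ hj)
      obtain ⟨l', rfl⟩ := σ.surjective l
      have h1 : l' ≠ j := fun e => hl (e ▸ rfl)
      have h2 : l' ≠ 2 := fun e => hlne (e ▸ hs2)
      have h3 : l' ≠ k := fun e => hlne (e ▸ hk0)
      have h4 : k ≠ j := fun e => hj (e ▸ hk0)
      revert h1 h2 h3 h4 hk hj2
      clear * -
      revert l' j k
      decide
    have hst : Strip N (permF σ F) fun k => u (σ k) :=
      ⟨h.perm σ, hmem, pos hu _ (hex 0 (by decide)), pos hu _ (hex 1 (by decide)), hs2⟩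
    have := hst.vol_ge (hnf.perm σ) (by rwa [card_permF])
    rwa [vol_perm] at this
  · simp only [NoFull, not_forall, not_exists] at hnf
    obtain ⟨w, hw, hp⟩ := hnf
    exact vol_full h hw fun k => pos hw k (hp k)

/-- The sharp centroid inequality for polytopes. -/
theorem eight_le_G (F : Finset R3) (hF : Good F) : 8 * ∏ k, mom F k ≤ vol F ^ 4 := by
  obtain ⟨F₀, h⟩ := exists_opt (N := F.card + 7) (by omega)
  have h8 := h.vol_ge (by omega)
  have hle := h.min F hF (by omega)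
  simp only [G, h.cent, Finset.prod_const, Finset.card_univ, Fintype.card_fin] at hle
  rw [show vol F₀ ^ 4 / vol F₀ ^ 3 = vol F₀ by field_simp [h.good.vol_pos.ne'],
    le_div_iff₀ hF.prod_mom_pos] at hle
  exact (mul_le_mul_of_nonneg_right h8 hF.prod_mom_pos.le).trans hle

end Vale.Agent.P254u
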