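import Vale.Agent.P254u.Var

/-!
# P254: equations on the facets of a minimiser
-/

namespace Vale.Agent.P254u

open MeasureTheory Set Filter
open scoped Topology

variable {N : ℕ} {F : Finset R3} {w : R3}

/-- The affine function with coefficients `d`. -/
def lin (d : R3) (y : ℝ × ℝ) : ℝ := d 0 - d 1 * y.1 - d 2 * y.2

@[fun_prop]
theorem continuous_lin (d : R3) : Continuous (lin d) := by unfold lin; fun_prop

/-- The constraint whose facet is raised by `ε * lin d`. -/
noncomputable def nw (w d : R3) (ε : ℝ) : R3 :=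
  fun k => ![w 0 + ε * d 1 * w 1, w 1, w 2 + ε * d 2 * w 1] k / (1 + ε * d 0 * w 1)

theorem le_nw {d : R3} {ε : ℝ} (h1 : 0 < w 1) (hden : 0 < 1 + ε * d 0 * w 1) (x : R3) :
    dot (nw w d ε) x ≤ 1 ↔ x 1 ≤ ub w (x 0, x 2) + ε * lin d (x 0, x 2) := by
  have e : dot (nw w d ε) x = ((w 0 + ε * d 1 * w 1) * x 0 + w 1 * x 1 +
      (w 2 + ε * d 2 * w 1) * x 2) / (1 + ε * d 0 * w 1) := by
    simp only [dot, nw, Matrix.cons_val_zero, Matrix.cons_val_one, Matrix.cons_val_two,
      Matrix.head_cons, Matrix.tail_cons]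
    ring
  have e2 : ub w (x 0, x 2) + ε * lin d (x 0, x 2) =
      (1 + ε * d 0 * w 1 - (w 0 + ε * d 1 * w 1) * x 0 - (w 2 + ε * d 2 * w 1) * x 2) / w 1 := by
    simp only [ub, lin]; field_simp; ring
  rw [e, div_le_one hden, e2, le_div_iff₀ h1]
  constructor <;> intro h <;> linarith

theorem eventually_nw {d : R3} (h1 : 0 < w 1) (hw : ∀ k, 0 ≤ w k) (hd1 : 0 ≤ d 1 ∨ 0 < w 0)
    (hd2 : 0 ≤ d 2 ∨ 0 < w 2) :
    ∀ᶠ ε in 𝓝[≥] (0 : ℝ), 0 < 1 + ε * d 0 * w 1 ∧ ∀ k, 0 ≤ nw w d ε k ∧ w k / 2 ≤ nw w d ε k := by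
  have hden : ∀ᶠ ε in 𝓝 (0 : ℝ), 0 < 1 + ε * d 0 * w 1 :=
    ContinuousAt.eventually_lt continuousAt_const (by fun_prop) (by norm_num)
  refine (hden.filter_mono nhdsWithin_le_nhds).and (eventually_all.2 fun k => ?_)
  have hcont : ContinuousAt (fun ε => nw w d ε k) 0 := by
    fin_cases k <;> simp [nw] <;> fun_prop (disch := norm_num)
  have h0 : nw w d 0 k = w k := by fin_cases k <;> simp [nw]
  by_cases hk : 0 < w k
  · have : ∀ᶠ ε in 𝓝 (0 : ℝ), w k / 2 < nw w d ε k :=
      ContinuousAt.eventually_lt continuousAt_const hcont (by rw [h0]; linarith)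
    filter_upwards [this.filter_mono nhdsWithin_le_nhds] with ε he
    exact ⟨by linarith, he.le⟩
  · have hk0 : w k = 0 := le_antisymm (not_lt.1 hk) (hw k)
    filter_upwards [self_mem_nhdsWithin, hden.filter_mono nhdsWithin_le_nhds] with ε hε hd
    have hε : 0 ≤ ε := hε
    have hnn : 0 ≤ nw w d ε k := by
      fin_cases k
      · simp only [Fin.zero_eta, Fin.isValue] at hk0 ⊢
        have : 0 ≤ d 1 := hd1.resolve_right (by rw [hk0]; exact lt_irrefl 0)
        simp [nw, hk0]; positivity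
      · simp only [Fin.mk_one, Fin.isValue] at hk0
        linarith
      · simp only [Fin.reduceFinMk, Fin.isValue] at hk0 ⊢
        have : 0 ≤ d 2 := hd2.resolve_right (by rw [hk0]; exact lt_irrefl 0)
        simp [nw, hk0]; positivity
    exact ⟨hnn, by rw [hk0]; simpa using hnn⟩

/-- The first variation for raising a facet by the minimum of two affine functions. -/
theorem var_lin (h : Opt N F) (hw : w ∈ F) (h1 : 0 < w 1) {d d' : R3}
    (hd1 : 0 ≤ d 1 ∨ 0 < w 0) (hd2 : 0 ≤ d 2 ∨ 0 < w 2) (hd1' : 0 ≤ d' 1 ∨ 0 < w 0)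
    (hd2' : 0 ≤ d' 2 ∨ 0 < w 2) (hc : d = d' ∨ F.card < N) :
    0 ≤ ∫ y in act F w, min (lin d y) (lin d' y) * (4 - y.1 - ub w y - y.2) := by
  have hwnn := h.good.nonneg w hw
  obtain ⟨ε₀, hε₀, hsub⟩ := mem_nhdsGE_iff_exists_Icc_subset.1
    ((eventually_nw h1 hwnn hd1 hd2).and (eventually_nw h1 hwnn hd1' hd2'))
  obtain ⟨R₀, hR₀, hR⟩ := h.good.bound
  set Fn : ℝ → Finset R3 := fun ε => insert (nw w d ε) (insert (nw w d' ε) (F.erase w)) with hFn
  have hbody : ∀ ε ∈ Icc 0 ε₀,
      body (Fn ε) = moved F w (fun y => min (lin d y) (lin d' y)) ε := by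
    intro ε hε
    obtain ⟨⟨hda, -⟩, ⟨hdb, -⟩⟩ := hsub hε
    ext x
    simp only [hFn, body, moved, mem_ofPred_eq, Finset.forall_mem_insert, le_nw h1 hda,
      le_nw h1 hdb, mul_min_of_nonneg _ _ hε.1, ← min_add_add_left, le_min_iff]
    tauto
  refine first_var h hw h1 (by fun_prop) hε₀ (R := 2 * R₀ + 1 / w 1 + 1) (by linarith) ?_ ?_
  · intro ε hε x hx
    rw [← hbody ε hε] at hx
    obtain ⟨⟨-, ha⟩, -⟩ := hsub hε
    have hhalf : (fun k => x k / 2) ∈ body F := by
      refine ⟨fun k => div_nonneg (hx.1 k) zero_le_two, fun v hv => ?_⟩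
      have e : dot v (fun k => x k / 2) = dot v x / 2 := by simp only [dot]; ring
      rw [e]
      rcases eq_or_ne v w with rfl | hne
      · refine le_trans ?_ (hx.2 _ (Finset.mem_insert_self _ _))
        rw [dot_sum, dot_sum, Finset.sum_div]
        refine Finset.sum_le_sum fun k _ => ?_
        rw [mul_div_right_comm]
        exact mul_le_mul_of_nonneg_right (ha k).2 (hx.1 k)
      · have := hx.2 v (Finset.mem_insert_of_mem
          (Finset.mem_insert_of_mem (Finset.mem_erase.2 ⟨hne, hv⟩)))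
        linarith
    refine ⟨hx.1, fun k => ?_⟩
    have := hR _ hhalf k
    have : 0 < 1 / w 1 := by positivity
    linarith
  · intro ε hε
    obtain ⟨⟨-, ha⟩, ⟨-, hb⟩⟩ := hsub ⟨hε.1.le, hε.2⟩
    refine ⟨Fn ε, ⟨?_, fun k => ?_⟩, ?_, hbody ε ⟨hε.1.le, hε.2⟩⟩
    · intro v hv k
      simp only [hFn, Finset.mem_insert, Finset.mem_erase] at hv
      rcases hv with rfl | rfl | ⟨-, hv⟩
      exacts [(ha k).1, (hb k).1, h.good.nonneg v hv k]
    · obtain ⟨v, hv, hp⟩ := h.good.cap k
      rcases eq_or_ne v w with rfl | hne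
      · exact ⟨_, Finset.mem_insert_self _ _, lt_of_lt_of_le (half_pos hp) (ha k).2⟩
      · exact ⟨v, Finset.mem_insert_of_mem
          (Finset.mem_insert_of_mem (Finset.mem_erase.2 ⟨hne, hv⟩)), hp⟩
    · have he : (F.erase w).card + 1 = F.card := Finset.card_erase_add_one hw
      have hi1 := Finset.card_insert_le (nw w d' ε) (F.erase w)
      rcases hc with rfl | hlt
      · simp only [hFn, Finset.insert_idem]
        have := h.card; omega
      · have := Finset.card_insert_le (nw w d ε) (insert (nw w d' ε) (F.erase w))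
        simp only [hFn]; omega

theorem var_lin_one (h : Opt N F) (hw : w ∈ F) (h1 : 0 < w 1) {d : R3}
    (hd1 : 0 ≤ d 1 ∨ 0 < w 0) (hd2 : 0 ≤ d 2 ∨ 0 < w 2) :
    0 ≤ ∫ y in act F w, lin d y * (4 - y.1 - ub w y - y.2) := by
  simpa using var_lin h hw h1 hd1 hd2 hd1 hd2 (Or.inl rfl)

theorem facet_eq (h : Opt N F) (hw : w ∈ F) (h1 : 0 < w 1) {d : R3}
    (hd1 : d 1 = 0 ∨ 0 < w 0) (hd2 : d 2 = 0 ∨ 0 < w 2) :
    ∫ y in act F w, lin d y * (4 - y.1 - ub w y - y.2) = 0 := by
  refine le_antisymm ?_ (var_lin_one h hw h1 (hd1.imp_left fun e => e.ge) (hd2.imp_left fun e => e.ge))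
  have := var_lin_one h hw h1 (d := fun k => -d k) (hd1.imp_left fun e => by simp [e])
    (hd2.imp_left fun e => by simp [e])
  have e : ∀ y, lin (fun k => -d k) y * (4 - y.1 - ub w y - y.2) =
      -(lin d y * (4 - y.1 - ub w y - y.2)) := fun y => by simp only [lin]; ring
  simp only [e, integral_neg] at this
  linarith

theorem act_bounded (h : Opt N F) (hw : w ∈ F) (h1 : 0 < w 1) :
    ∃ R : ℝ, 0 < R ∧ act F w ⊆ Icc ((0 : ℝ), (0 : ℝ)) (R, R) := by
  obtain ⟨R, hR0, hR⟩ := h.good.bound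
  refine ⟨R, hR0, fun y hy => ?_⟩
  have hb : mk y (ub w y) ∈ body F := by
    refine ⟨fun k => by fin_cases k <;> simp [hy.1.le, hy.2.1.le, hy.2.2.1.le], fun v hvF => ?_⟩
    rcases eq_or_ne v w with rfl | hne
    · exact (dot_ub h1.ne' y).le
    · exact (hy.2.2.2 v hvF hne).le
  exact ⟨⟨hy.1.le, hy.2.1.le⟩, ⟨hR _ hb 0, hR _ hb 2⟩⟩

theorem integrableOn_act (h : Opt N F) (hw : w ∈ F) (h1 : 0 < w 1) {f : ℝ × ℝ → ℝ}
    (hf : Continuous f) : IntegrableOn f (act F w) volume := by
  obtain ⟨R, -, hR⟩ := act_bounded h hw h1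
  exact (hf.continuousOn.integrableOn_compact isCompact_Icc).mono_set hR

theorem act_nonempty (h : Opt N F) (hw : w ∈ F) (h1 : 0 < w 1) : (act F w).Nonempty := by
  obtain ⟨x, hx, hd, ho⟩ := h.irred w hw
  have hu : ub w (x 0, x 2) = x 1 := by
    simp only [dot] at hd
    rw [ub, div_eq_iff h1.ne']; linarith
  have e : mk (x 0, x 2) (x 1) = x := by funext i; fin_cases i <;> rfl
  exact ⟨(x 0, x 2), hx 0, hx 2, hu ▸ hx 1, fun v hv hne => by rw [hu, e]; exact ho v hv hne⟩

/-- On a facet in the plane `x₀ + x₁ + x₂ = 4` and strictly inside it elsewhere, the mean of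
`4 - x₀ - x₁ - x₂` cannot vanish. -/
theorem not_strictly_below (h : Opt N F) (hw : w ∈ F) (h1 : 0 < w 1) :
    ¬ ∀ y ∈ act F w, y.1 + ub w y + y.2 < 4 := by
  intro hlt
  have h0 := facet_eq h hw h1 (d := ![1, 0, 0]) (Or.inl rfl) (Or.inl rfl)
  have hu := continuous_ub w
  have hpos : 0 < ∫ y in act F w, lin ![1, 0, 0] y * (4 - y.1 - ub w y - y.2) := by
    have hl : ∀ y, lin ![1, 0, 0] y = 1 := fun y => by simp [lin]
    simp only [hl, one_mul]
    rw [setIntegral_pos_iff_support_of_nonneg_ae]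
    · refine ((isOpen_act F w).measure_pos volume (act_nonempty h hw h1)).trans_le
        (measure_mono fun y hy => ⟨?_, hy⟩)
      have := hlt y hy
      exact (ne_of_gt (by linarith))
    · filter_upwards [ae_restrict_mem (isOpen_act F w).measurableSet] with y hy
      have := hlt y hy
      simp only [Pi.zero_apply]; linarith
    · exact integrableOn_act h hw h1 (by fun_prop)
  linarith

theorem Opt.perm (h : Opt N F) (σ : Equiv.Perm (Fin 3)) : Opt N (permF σ F) := by
  refine ⟨h.good.perm σ, by rw [card_permF]; exact h.card,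
    fun F' h1 h2 => by rw [G_perm]; exact h.min F' h1 h2,
    fun k => by rw [mom_perm, vol_perm]; exact h.cent _, fun v hv => ?_⟩
  obtain ⟨x, hx, hd, ho⟩ := h.irred _ (mem_permF.1 hv)
  refine ⟨fun k => x (σ k), fun k => hx _, ?_, fun u hu hne => ?_⟩
  · have := dot_perm σ (fun k => v (σ.symm k)) x
    simp only [Equiv.symm_apply_apply] at this
    rw [this, hd]
  · have := dot_perm σ (fun k => u (σ.symm k)) x
    simp only [Equiv.symm_apply_apply] at this
    rw [this]
    refine ho _ (mem_permF.1 hu) fun e => hne (funext fun k => ?_)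
    simpa using congrFun e (σ k)

/-- A constraint with full support is the plane `x₀ + x₁ + x₂ = 4`, and is the only constraint. -/
theorem full_plane (h : Opt N F) (hw : w ∈ F) (hp : ∀ k, 0 < w k) : ∀ k, w k = 1 / 4 := by
  have h1 := hp 1
  have hu := continuous_ub w
  set r : ℝ × ℝ → ℝ := fun y => 4 - y.1 - ub w y - y.2 with hr
  set d : R3 := ![4 - 1 / w 1, 1 - w 0 / w 1, 1 - w 2 / w 1] with hd
  have hrl : ∀ y, lin d y = r y := fun y => by
    simp only [hd, lin, hr, ub, Matrix.cons_val_zero, Matrix.cons_val_one, Matrix.cons_val_two,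
      Matrix.head_cons, Matrix.tail_cons]
    ring
  have h0 := facet_eq h hw h1 (d := d) (Or.inr (hp 0)) (Or.inr (hp 2))
  simp only [hrl] at h0
  have hae : (fun y => r y * r y) =ᵐ[volume.restrict (act F w)] 0 :=
    (setIntegral_eq_zero_iff_of_nonneg_ae (.of_forall fun y => mul_self_nonneg _)
      (integrableOn_act h hw h1 (by fun_prop))).1 h0
  have heq : EqOn (fun y => r y * r y) 0 (act F w) :=
    Measure.eqOn_open_of_ae_eq hae (isOpen_act F w) (by fun_prop) continuousOn_const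
  obtain ⟨y, hy⟩ := act_nonempty h hw h1
  obtain ⟨e, he, hball⟩ := Metric.isOpen_iff.1 (isOpen_act F w) y hy
  have z : ∀ a c : ℝ, |a| < e → |c| < e → lin d (y.1 + a, y.2 + c) = 0 := by
    intro a c ha hc
    rw [hrl]
    refine mul_self_eq_zero.1 (heq (hball ?_))
    rw [Metric.mem_ball, Prod.dist_eq]
    exact max_lt (by simpa [Real.dist_eq] using ha) (by simpa [Real.dist_eq] using hc)
  have he2 : |e / 2| < e := by rw [abs_of_pos (half_pos he)]; linarith
  have z0 := z 0 0 (by simpa using he) (by simpa using he)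
  have za := z (e / 2) 0 he2 (by simpa using he)
  have zc := z 0 (e / 2) (by simpa using he) he2
  simp only [hd, lin, Matrix.cons_val_zero, Matrix.cons_val_one, Matrix.cons_val_two,
    Matrix.head_cons, Matrix.tail_cons] at z0 za zc
  have a1 : (1 - w 0 / w 1) * (e / 2) = 0 := by linarith
  have a2 : (1 - w 2 / w 1) * (e / 2) = 0 := by linarith
  have b1 : w 0 / w 1 = 1 := by
    have := (mul_eq_zero.1 a1).resolve_right (by positivity); linarith
  have b2 : w 2 / w 1 = 1 := by
    have := (mul_eq_zero.1 a2).resolve_right (by positivity); linarith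
  rw [b1, b2] at z0
  have c1 : 1 / w 1 = 4 := by linarith
  rw [div_eq_iff h1.ne'] at b1 b2 c1
  intro k; fin_cases k <;> simp <;> linarith

theorem full_unique (h : Opt N F) (hw : w ∈ F) (hp : ∀ k, 0 < w k) : F = {w} := by
  refine Finset.eq_singleton_iff_unique_mem.2 ⟨hw, fun v hv => ?_⟩
  by_contra hne
  obtain ⟨x, -, hd, -⟩ := h.irred v hv
  obtain ⟨k, hk⟩ : ∃ k, 0 < v k := by
    by_contra hall
    push Not at hall
    have : ∀ k, v k = 0 := fun k => le_antisymm (hall k) (h.good.nonneg v hv k)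
    simp [dot, this] at hd
  set σ : Equiv.Perm (Fin 3) := Equiv.swap 1 k with hσ
  have hq := full_plane h hw hp
  have hv' : (fun j => v (σ j)) ∈ permF σ F := Finset.mem_image_of_mem _ hv
  have hk' : 0 < (fun j => v (σ j)) 1 := by simpa [hσ] using hk
  refine not_strictly_below (h.perm σ) hv' hk' fun y hy => ?_
  have hw' : (fun j => w (σ j)) ∈ permF σ F := Finset.mem_image_of_mem _ hw
  have := hy.2.2.2 _ hw' (fun e => hne (funext fun j => by simpa using (congrFun e (σ.symm j)).symm))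
  simp only [dot, mk_zero, mk_one, mk_two, hq] at this
  linarith

end Vale.Agent.P254u
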