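import Vale.Agent.P254u.Line

/-!
# P254: at most one strip per pair of coordinates, so at most six constraints
-/

namespace Vale.Agent.P254u

open MeasureTheory Set

variable {N : ℕ} {F : Finset R3} {w w' : R3}

/-- Every constraint misses a coordinate. -/
def NoFull (F : Finset R3) : Prop := ∀ v ∈ F, ∃ k, v k = 0

theorem NoFull.perm (h : NoFull F) (σ : Equiv.Perm (Fin 3)) : NoFull (permF σ F) := by
  intro v hv
  obtain ⟨k, hk⟩ := h _ (mem_permF.1 hv)
  exact ⟨σ.symm k, hk⟩

theorem NoFull.top_type (h : NoFull F) {v : R3} (hv : v ∈ top F) : v 0 = 0 ∨ v 1 = 0 := by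
  obtain ⟨k, hk⟩ := h v (mem_top.1 hv).1
  fin_cases k
  · exact Or.inl hk
  · exact Or.inr hk
  · exact absurd hk (mem_top.1 hv).2.ne'

theorem not_proportional (h : Opt N F) {v : R3} (hv : v ∈ F) (hw : w ∈ F) {l : ℝ}
    (hl : ∀ k, v k = l * w k) : v = w := by
  by_contra hne
  obtain ⟨x, -, hx, hxo⟩ := h.irred w hw
  obtain ⟨y, -, hy, hyo⟩ := h.irred v hv
  have h1 := hxo v hv hne
  have h2 := hyo w hw (Ne.symm hne)
  have e : ∀ z, dot v z = l * dot w z := fun z => by simp only [dot, hl]; ring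
  rw [e, hx] at h1
  rw [e] at hy
  have : 0 < l := by
    by_contra hl0
    push Not at hl0
    have hnn : ∀ k, 0 ≤ v k := h.good.nonneg v hv
    have hw0 : ∀ k, v k = 0 := fun k => le_antisymm
      (by rw [hl]; exact mul_nonpos_of_nonpos_of_nonneg hl0 (h.good.nonneg w hw k)) (hnn k)
    rw [← e] at hy
    simp [dot, hw0] at hy
  nlinarith

namespace Strip

theorem JJ_lt (h : Strip N F w) (h' : Strip N F w') (hne : w ≠ w')
    (hp : w 0 / w 1 < w' 0 / w' 1) : hi F w ≤ lo F w' := by
  have hgen : ∀ {x z : R3} {a : ℝ}, Strip N F z → x 0 * a + x 1 * uu z a < 1 → 0 < x 1 →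
      uu z a < uu x a := by
    intro x z a _ hlt hx
    rw [uu.eq_1 x, lt_div_iff₀ hx]
    linarith
  have key : ∀ a ∈ JJ F w, ∀ b ∈ JJ F w', a ≤ b := by
    intro a ha b hb
    have h1 := hgen h (ha.2.2.1 w' h'.mem h'.p2 (Ne.symm hne)) h'.p1
    have h2 := hgen h' (hb.2.2.1 w h.mem h.p2 hne) h.p1
    by_contra hab
    push Not at hab
    have e : (uu w' a - uu w a) - (uu w' b - uu w b) = (w 0 / w 1 - w' 0 / w' 1) * (a - b) := by
      simp only [uu]; ring
    nlinarith
  have hn : (JJ F w).Nonempty := by rw [h.JJ_eq.2]; exact nonempty_Ioo.2 h.lo_lt_hi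
  have hn' : (JJ F w').Nonempty := by rw [h'.JJ_eq.2]; exact nonempty_Ioo.2 h'.lo_lt_hi
  exact csSup_le hn fun a ha => le_csInf hn' fun b hb => key a ha b hb

theorem unique_lt (h : Strip N F w) (h' : Strip N F w') (hnf : NoFull F) (hne : w ≠ w')
    (hp : w 0 / w 1 < w' 0 / w' 1) : False := by
  have hg := h.opt.good
  set p := w 0 / w 1 with hpd
  set p' := w' 0 / w' 1 with hpd'
  have hp0 : 0 < p := div_pos h.p0 h.p1
  set e := hi F w with he
  set s := lo F w' with hs
  have hes : e ≤ s := JJ_lt h h' hne hp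
  have cle : ∀ {x z : R3} {a : ℝ}, 0 < x 1 → x 0 * a + x 1 * uu z a ≤ 1 → uu z a ≤ uu x a := by
    intro x z a hx hle
    rw [uu.eq_1 x, le_div_iff₀ hx]
    linarith
  have hus : uu w' s ≤ uu w s :=
    cle h.p1 ((h'.closure_facts ⟨le_rfl, h'.lo_lt_hi.le⟩).2.2.1 w h.mem h.p2 hne)
  -- slopes by type
  have slII : ∀ {v z : R3}, v 1 = 0 → slope' v z = -(v 0 / v 2) := by
    intro v z hv; simp only [slope', hv]; ring
  have slI : ∀ {v z : R3}, v 0 = 0 → slope' v z = v 1 / v 2 * (z 0 / z 1) := by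
    intro v z hv; simp only [slope', hv]; ring
  have hnn : ∀ {v : R3}, v ∈ top F → ∀ k, 0 ≤ v k / v 2 := fun {v} hv k =>
    div_nonneg (hg.nonneg v (mem_top.1 hv).1 k) (mem_top.1 hv).2.le
  rcases eq_or_lt_of_le hes with heq | hlt
  · have hue : uu w e ≤ uu w' e :=
      cle h'.p1 ((h.closure_facts ⟨h.lo_lt_hi.le, le_rfl⟩).2.2.1 w' h'.mem h'.p2 (Ne.symm hne))
    rw [← heq] at hus
    have huu : uu w' e = uu w e := le_antisymm hus hue
    obtain ⟨v, hv, hve⟩ := exists_Lh hg e (uu w e)
    have t1 := h.slope_hi hv hve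
    have t2 := h'.slope_lo hv (by
      show LL F w' s = ell v s (uu w' s)
      rw [LL, ← heq, huu]
      exact hve)
    rcases hnf.top_type hv with hv0 | hv1
    · rw [slI hv0, ← hpd] at t1
      rw [slI hv0, ← hpd'] at t2
      have hb := hnn hv 1
      nlinarith
    · rw [slII hv1, ← hpd] at t1
      rw [slII hv1, ← hpd'] at t2
      linarith
  · have hub : uu w' s < uu w e := by
      refine lt_of_le_of_lt hus ?_
      have : uu w e - uu w s = p * (s - e) := by simp only [uu, hpd]; ring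
      nlinarith
    have gII : ∀ {v : R3}, v 1 = 0 → ∀ a b b', ell v a b = ell v a b' := by
      intro v hv a b b'; simp only [ell, hv]; ring
    by_cases hP : ∃ v ∈ top F, v 1 = 0 ∧ LL F w e = ell v e (uu w e)
    · obtain ⟨v, hv, hv1, hve⟩ := hP
      by_cases hQ : ∃ u ∈ top F, u 1 = 0 ∧ LL F w' s = ell u s (uu w' s)
      · obtain ⟨u, hu, hu1, hus'⟩ := hQ
        have t1 := h.slope_hi hv hve
        have t2 := h'.slope_lo hu hus'
        rw [slII hv1, ← hpd] at t1
        rw [slII hu1, ← hpd'] at t2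
        have a1 : ell v e (uu w e) ≤ ell u e (uu w e) := hve ▸ Lh_le hu e (uu w e)
        have a2 : ell u s (uu w' s) ≤ ell v s (uu w' s) := hus' ▸ Lh_le hv s (uu w' s)
        simp only [ell, hv1, hu1] at a1 a2
        have b1 : ∀ (z : R3) (a b : ℝ), (1 - z 0 * a - 0 * b) / z 2 = 1 / z 2 - z 0 / z 2 * a := by
          intro z a b; ring
        simp only [b1] at a1 a2
        nlinarith
      · obtain ⟨u, hu, hus'⟩ := exists_Lh hg s (uu w' s)
        have hu1 : u 1 ≠ 0 := fun e0 => hQ ⟨u, hu, e0, hus'⟩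
        have hu0 : u 0 = 0 := (hnf.top_type hu).resolve_right hu1
        refine hQ ⟨v, hv, hv1, le_antisymm (Lh_le hv _ _) ?_⟩
        have a1 : ell v s (uu w' s) ≤ ell v e (uu w e) := by
          rw [gII hv1 s (uu w' s) (uu w e)]
          simp only [ell]
          gcongr
          · exact (mem_top.1 hv).2.le
          · exact hg.nonneg v (mem_top.1 hv).1 0
        have a2 : ell v e (uu w e) ≤ ell u e (uu w e) := hve ▸ Lh_le hu e (uu w e)
        have a3 : ell u e (uu w e) ≤ ell u s (uu w' s) := by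
          simp only [ell, hu0, zero_mul]
          gcongr
          · exact (mem_top.1 hu).2.le
          · exact hg.nonneg u (mem_top.1 hu).1 1
        show ell v s (uu w' s) ≤ LL F w' s
        rw [show LL F w' s = ell u s (uu w' s) from hus']
        linarith
    · obtain ⟨v, hv, hve⟩ := exists_Lh hg e (uu w e)
      have hv1 : v 1 ≠ 0 := fun e0 => hP ⟨v, hv, e0, hve⟩
      have hv0 : v 0 = 0 := (hnf.top_type hv).resolve_right hv1
      have t1 := h.slope_hi hv hve
      rw [slI hv0, ← hpd] at t1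
      obtain ⟨u, hu, hus'⟩ := exists_Lh hg s (uu w' s)
      have t2 := h'.slope_lo hu hus'
      have hb := hnn hv 1
      rcases hnf.top_type hu with hu0 | hu1
      · rw [slI hu0, ← hpd'] at t2
        have a1 : ell v e (uu w e) ≤ ell u e (uu w e) := hve ▸ Lh_le hu e (uu w e)
        have a2 : ell u s (uu w' s) ≤ ell v s (uu w' s) := hus' ▸ Lh_le hv s (uu w' s)
        simp only [ell, hv0, hu0] at a1 a2
        have b1 : ∀ (z : R3) (a b : ℝ), (1 - 0 * a - z 1 * b) / z 2 = 1 / z 2 - z 1 / z 2 * b := by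
          intro z a b; ring
        simp only [b1] at a1 a2
        have hbu := hnn hu 1
        have hβ : u 1 / u 2 ≤ v 1 / v 2 := by nlinarith
        have hc : 0 < 1 - v 1 / v 2 / 2 := by nlinarith
        nlinarith [mul_lt_mul_of_pos_right hp hc,
          mul_nonneg (show (0 : ℝ) ≤ p' by linarith) (sub_nonneg.2 hβ)]
      · rw [slII hu1, ← hpd'] at t2
        have hb' := hnn hu 0
        nlinarith

theorem unique (h : Strip N F w) (h' : Strip N F w') (hnf : NoFull F) : w = w' := by
  by_contra hne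
  rcases lt_trichotomy (w 0 / w 1) (w' 0 / w' 1) with hlt | heq | hgt
  · exact unique_lt h h' hnf hne hlt
  · refine hne (not_proportional h.opt h.mem h'.mem (l := w 1 / w' 1) fun k => ?_)
    have := h'.p1.ne'
    have := h.p1.ne'
    rw [div_eq_div_iff h.p1.ne' h'.p1.ne'] at heq
    fin_cases k
    · show w 0 = w 1 / w' 1 * w' 0
      field_simp; linarith
    · show w 1 = w 1 / w' 1 * w' 1
      field_simp
    · simp [h.p2, h'.p2]
  · exact unique_lt h' h hnf (Ne.symm hne) hgt

end Strip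

/-- Constraints with the same zero coordinates coincide. -/
theorem supp_inj (h : Opt N F) (hnf : NoFull F) {v u : R3} (hv : v ∈ F) (hu : u ∈ F)
    (hs : ∀ k, v k = 0 ↔ u k = 0) : v = u := by
  have hnn := h.good.nonneg
  obtain ⟨i, hi⟩ := hnf v hv
  set σ : Equiv.Perm (Fin 3) := Equiv.swap 2 i with hσ
  set v' : R3 := fun k => v (σ k) with hv'
  set u' : R3 := fun k => u (σ k) with hu'
  have hv'm : v' ∈ permF σ F := Finset.mem_image_of_mem _ hv
  have hu'm : u' ∈ permF σ F := Finset.mem_image_of_mem _ hu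
  have hs' : ∀ k, v' k = 0 ↔ u' k = 0 := fun k => hs _
  have hv2 : v' 2 = 0 := by simpa [hv', hσ] using hi
  suffices hvu : v' = u' by
    funext k; simpa [hv', hu'] using congrFun hvu (σ.symm k)
  have hu2 := (hs' 2).1 hv2
  have hP := h.perm σ
  have pos : ∀ {z : R3}, z ∈ permF σ F → ∀ k, z k ≠ 0 → 0 < z k := fun {z} hz k hk =>
    lt_of_le_of_ne (hP.good.nonneg z hz k) (Ne.symm hk)
  by_cases h0 : v' 0 = 0
  · have hu0 := (hs' 0).1 h0
    by_cases h1 : v' 1 = 0
    · obtain ⟨x, -, hx, -⟩ := hP.irred v' hv'm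
      simp [dot, h0, h1, hv2] at hx
    · have hu1 : u' 1 ≠ 0 := fun e => h1 ((hs' 1).2 e)
      refine not_proportional hP hv'm hu'm (l := v' 1 / u' 1) fun k => ?_
      fin_cases k
      · show v' 0 = _ * u' 0
        simp [h0, hu0]
      · show v' 1 = _ * u' 1
        field_simp
      · show v' 2 = _ * u' 2
        simp [hv2, hu2]
  · have hu0 : u' 0 ≠ 0 := fun e => h0 ((hs' 0).2 e)
    by_cases h1 : v' 1 = 0
    · have hu1 := (hs' 1).1 h1
      refine not_proportional hP hv'm hu'm (l := v' 0 / u' 0) fun k => ?_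
      fin_cases k
      · show v' 0 = _ * u' 0
        field_simp
      · show v' 1 = _ * u' 1
        simp [h1, hu1]
      · show v' 2 = _ * u' 2
        simp [hv2, hu2]
    · have hu1 : u' 1 ≠ 0 := fun e => h1 ((hs' 1).2 e)
      exact Strip.unique ⟨hP, hv'm, pos hv'm 0 h0, pos hv'm 1 h1, hv2⟩
        ⟨hP, hu'm, pos hu'm 0 hu0, pos hu'm 1 hu1, hu2⟩ (hnf.perm σ)

theorem card_le_six (h : Opt N F) (hnf : NoFull F) : F.card ≤ 6 := by
  classical
  set f : R3 → Finset (Fin 3) := fun v => Finset.univ.filter fun k => v k ≠ 0 with hf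
  have hmaps : Set.MapsTo f F
      ↑((Finset.univ : Finset (Finset (Fin 3))) \ {∅, Finset.univ}) := by
    intro v hv
    simp only [Finset.coe_sdiff, mem_sdiff, Finset.coe_univ, mem_univ, true_and, Finset.coe_insert,
      Finset.coe_singleton, mem_insert_iff, mem_singleton_iff, not_or, hf]
    refine ⟨fun e => ?_, fun e => ?_⟩
    · obtain ⟨x, -, hx, -⟩ := h.irred v hv
      have : ∀ k, v k = 0 := fun k => by simpa using Finset.filter_eq_empty_iff.1 e (Finset.mem_univ k)
      simp [dot, this] at hx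
    · obtain ⟨k, hk⟩ := hnf v hv
      have : k ∈ (Finset.univ : Finset (Fin 3)) := Finset.mem_univ k
      rw [← e] at this
      simp [hk] at this
  have hinj : Set.InjOn f F := by
    intro v hv u hu e
    refine supp_inj h hnf hv hu fun k => ?_
    have := Finset.ext_iff.1 e k
    simp [hf] at this
    tauto
  exact (Finset.card_le_card_of_injOn f hmaps hinj).trans (by decide)

end Vale.Agent.P254u
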