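import Vale.Agent.P254u.Facet

/-!
# P254: a facet parallel to the third axis, reduced to one variable
-/

namespace Vale.Agent.P254u

open MeasureTheory Set Filter
open scoped Topology

variable {N : ℕ} {F : Finset R3} {w : R3}

/-- The constraints involving the third coordinate. -/
noncomputable def top (F : Finset R3) : Finset R3 := F.filter fun v => 0 < v 2

/-- The height allowed by one constraint. -/
noncomputable def ell (v : R3) (a b : ℝ) : ℝ := (1 - v 0 * a - v 1 * b) / v 2

/-- The height of the section over `(a, b)`. -/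
noncomputable def Lh (F : Finset R3) (a b : ℝ) : ℝ :=
  if h : (top F).Nonempty then (top F).inf' h (fun v => ell v a b) else 0

/-- The second coordinate along the strip of `w`. -/
noncomputable def uu (w : R3) (a : ℝ) : ℝ := (1 - w 0 * a) / w 1

/-- The length of the fibre over the strip. -/
noncomputable def LL (F : Finset R3) (w : R3) (a : ℝ) : ℝ := Lh F a (uu w a)

/-- The parameters of the strip. -/
def JJ (F : Finset R3) (w : R3) : Set ℝ :=
  {a | 0 < a ∧ 0 < uu w a ∧ (∀ v ∈ F, v 2 = 0 → v ≠ w → v 0 * a + v 1 * uu w a < 1) ∧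
    0 < LL F w a}

/-- The left end of the strip. -/
noncomputable def lo (F : Finset R3) (w : R3) : ℝ := sInf (JJ F w)

/-- The right end of the strip. -/
noncomputable def hi (F : Finset R3) (w : R3) : ℝ := sSup (JJ F w)

/-- The deviation of the fibre mean of `x₀ + x₁ + x₂` from `4`. -/
noncomputable def rho (F : Finset R3) (w : R3) (a : ℝ) : ℝ := a + uu w a + LL F w a / 2 - 4

/-- The slope of a constraint along the strip of `w`. -/
noncomputable def slope' (v w : R3) : ℝ := -(v 0 - v 1 * (w 0 / w 1)) / v 2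

/-- A strip: support is exactly the first two coordinates. -/
structure Strip (N : ℕ) (F : Finset R3) (w : R3) : Prop where
  opt : Opt N F
  mem : w ∈ F
  p0 : 0 < w 0
  p1 : 0 < w 1
  p2 : w 2 = 0

@[fun_prop]
theorem continuous_uu (w : R3) : Continuous (uu w) := by unfold uu; fun_prop

theorem ub_eq {w : R3} (h2 : w 2 = 0) (y : ℝ × ℝ) : ub w y = uu w y.1 := by
  simp [ub, uu, h2]

theorem mem_top {v : R3} : v ∈ top F ↔ v ∈ F ∧ 0 < v 2 := Finset.mem_filter

theorem top_nonempty (h : Good F) : (top F).Nonempty := by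
  obtain ⟨v, hv, hp⟩ := h.cap 2
  exact ⟨v, mem_top.2 ⟨hv, hp⟩⟩

theorem Lh_le {v : R3} (hv : v ∈ top F) (a b : ℝ) : Lh F a b ≤ ell v a b := by
  rw [Lh, dif_pos ⟨v, hv⟩]
  exact Finset.inf'_le (fun v => ell v a b) hv

theorem exists_Lh (h : Good F) (a b : ℝ) : ∃ v ∈ top F, Lh F a b = ell v a b := by
  rw [Lh, dif_pos (top_nonempty h)]
  exact Finset.exists_mem_eq_inf' _ _

theorem lt_Lh (h : Good F) {a b c : ℝ} :
    c < Lh F a b ↔ ∀ v ∈ top F, c < ell v a b := by
  rw [Lh, dif_pos (top_nonempty h), Finset.lt_inf'_iff]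

theorem lt_ell {v : R3} (hv : 0 < v 2) (a b c : ℝ) :
    c < ell v a b ↔ dot v (mk (a, c) b) < 1 := by
  simp only [ell, dot, mk_zero, mk_one, mk_two, lt_div_iff₀ hv]
  constructor <;> intro h <;> linarith

theorem ell_affine {v : R3} (w : R3) (a b : ℝ) :
    ell v a (uu w a) = ell v b (uu w b) + slope' v w * (a - b) := by
  simp only [ell, uu, slope']
  ring

theorem continuous_LL (h : Good F) (w : R3) : Continuous (LL F w) := by
  have e : LL F w = fun a => (top F).inf' (top_nonempty h) fun v => ell v a (uu w a) :=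
    funext fun a => by rw [LL, Lh, dif_pos (top_nonempty h)]
  rw [e]
  exact Continuous.finset_inf'_apply _ fun v _ => by unfold ell; fun_prop

theorem continuous_rho (h : Good F) (w : R3) : Continuous (rho F w) := by
  have := continuous_LL h w
  unfold rho; fun_prop

theorem LL_concave (h : Good F) (w : R3) {a b t : ℝ} (ht0 : 0 ≤ t) (ht1 : t ≤ 1) :
    t * LL F w a + (1 - t) * LL F w b ≤ LL F w (t * a + (1 - t) * b) := by
  obtain ⟨v, hv, he⟩ := exists_Lh h (t * a + (1 - t) * b) (uu w (t * a + (1 - t) * b))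
  rw [show LL F w (t * a + (1 - t) * b) = _ from he]
  have h1 := mul_le_mul_of_nonneg_left (Lh_le hv a (uu w a)) ht0
  have h2 := mul_le_mul_of_nonneg_left (Lh_le hv b (uu w b)) (sub_nonneg.2 ht1)
  have e : ell v (t * a + (1 - t) * b) (uu w (t * a + (1 - t) * b)) =
      t * ell v a (uu w a) + (1 - t) * ell v b (uu w b) := by simp only [ell, uu]; ring
  rw [e]
  exact add_le_add h1 h2

theorem rho_concave (h : Good F) (w : R3) {a b t : ℝ} (ht0 : 0 ≤ t) (ht1 : t ≤ 1) :
    t * rho F w a + (1 - t) * rho F w b ≤ rho F w (t * a + (1 - t) * b) := by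
  have hL := LL_concave h w (a := a) (b := b) ht0 ht1
  have hu : uu w (t * a + (1 - t) * b) = t * uu w a + (1 - t) * uu w b := by
    simp only [uu]; ring
  simp only [rho, hu]
  linarith

/-- Two vanishing moments rule out a strictly monotone function. -/
theorem not_mono {s e : ℝ} (hse : s < e) {L f : ℝ → ℝ} (hL : Continuous L) (hf : Continuous f)
    (hpos : ∀ a ∈ Ioo s e, 0 < L a) (hmono : StrictMonoOn f (Icc s e))
    (h0 : ∫ a in s..e, L a * f a = 0) (h1 : ∫ a in s..e, a * (L a * f a) = 0) : False := by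
  set P : Set ℝ := insert e {a ∈ Icc s e | 0 ≤ f a} with hP
  have hbdd : BddBelow P := ⟨s, by rintro a (rfl | ha); exacts [hse.le, ha.1.1]⟩
  set c := sInf P with hc
  have hclt : ∀ a ∈ Icc s e, a < c → f a < 0 := fun a ha hac => lt_of_not_ge fun hfa =>
    not_le.2 hac (csInf_le hbdd (Or.inr ⟨ha, hfa⟩))
  have hcgt : ∀ a ∈ Icc s e, c < a → 0 < f a := by
    intro a ha hca
    obtain ⟨b, hb, hba⟩ := exists_lt_of_csInf_lt (insert_nonempty _ _) hca
    rcases hb with rfl | ⟨hb, hfb⟩
    · exact absurd hba (not_lt.2 ha.2)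
    · exact lt_of_le_of_lt hfb (hmono hb ha hba)
  have hnn : ∀ a ∈ Icc s e, 0 ≤ (a - c) * f a := by
    intro a ha
    rcases lt_trichotomy a c with h | h | h
    · exact mul_nonneg_of_nonpos_of_nonpos (by linarith) (hclt a ha h).le
    · simp [h]
    · exact mul_nonneg (by linarith) (hcgt a ha h).le
  have hLnn : ∀ a ∈ Icc s e, 0 ≤ L a := by
    intro a ha
    rw [← closure_Ioo hse.ne] at ha
    exact le_on_closure (fun x hx => (hpos x hx).le) continuousOn_const hL.continuousOn ha
  have hpt : ∃ a ∈ Icc s e, 0 < L a * ((a - c) * f a) := by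
    obtain ⟨a, ha, hne⟩ := (Ioo_infinite hse).exists_notMem_finset {c}
    refine ⟨a, Ioo_subset_Icc_self ha, mul_pos (hpos a ha) ?_⟩
    rcases lt_or_gt_of_ne (by simpa using hne : a ≠ c) with h | h
    · exact mul_pos_of_neg_of_neg (by linarith) (hclt a (Ioo_subset_Icc_self ha) h)
    · exact mul_pos (by linarith) (hcgt a (Ioo_subset_Icc_self ha) h)
  have hI := intervalIntegral.integral_pos hse
    (f := fun a => L a * ((a - c) * f a)) (by fun_prop)
    (fun a ha => mul_nonneg (hLnn a (Ioc_subset_Icc_self ha)) (hnn a (Ioc_subset_Icc_self ha))) hpt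
  have e : ∫ a in s..e, L a * ((a - c) * f a) =
      (∫ a in s..e, a * (L a * f a)) - c * ∫ a in s..e, L a * f a := by
    rw [← intervalIntegral.integral_const_mul, ← intervalIntegral.integral_sub
      (Continuous.intervalIntegrable (by fun_prop) _ _)
      (Continuous.intervalIntegrable (by fun_prop) _ _)]
    exact intervalIntegral.integral_congr fun a _ => by ring
  rw [e, h0, h1] at hI
  simp at hI

namespace Strip

theorem mem_act (h : Strip N F w) (a c : ℝ) :
    (a, c) ∈ act F w ↔ a ∈ JJ F w ∧ c ∈ Ioo 0 (LL F w a) := by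
  simp only [act, mem_ofPred_eq, ub_eq h.p2, JJ, LL, mem_Ioo]
  constructor
  · rintro ⟨ha, hc, hu, ho⟩
    have hlt : c < Lh F a (uu w a) := (lt_Lh h.opt.good).2 fun v hv =>
      (lt_ell (mem_top.1 hv).2 a _ c).2 (ho v (mem_top.1 hv).1 fun e => by
        rw [e] at hv; exact (mem_top.1 hv).2.ne' h.p2)
    refine ⟨⟨ha, hu, fun v hv h2 hne => ?_, hc.trans hlt⟩, hc, hlt⟩
    simpa [dot, h2] using ho v hv hne
  · rintro ⟨⟨ha, hu, ho, -⟩, hc, hlt⟩
    refine ⟨ha, hc, hu, fun v hv hne => ?_⟩
    rcases eq_or_lt_of_le (h.opt.good.nonneg v hv 2) with h2 | h2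
    · simpa [dot, ← h2] using ho v hv h2.symm hne
    · exact (lt_ell h2 a _ c).1 ((lt_Lh h.opt.good).1 hlt v (mem_top.2 ⟨hv, h2⟩))

theorem JJ_eq (h : Strip N F w) : lo F w < hi F w ∧ JJ F w = Ioo (lo F w) (hi F w) := by
  have hL := continuous_LL h.opt.good w
  have hopen : IsOpen (JJ F w) := by
    have e : JJ F w = Ioi 0 ∩ ({a | 0 < uu w a} ∩
        ((⋂ v ∈ F, {a | v 2 = 0 → v ≠ w → v 0 * a + v 1 * uu w a < 1}) ∩
          {a | 0 < LL F w a})) := by
      ext a; simp [JJ]
    rw [e]
    refine isOpen_Ioi.inter ((isOpen_lt continuous_const (continuous_uu w)).inter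
      ((isOpen_biInter_finset fun v _ => ?_).inter (isOpen_lt continuous_const hL)))
    by_cases hv : v 2 = 0 ∧ v ≠ w
    · simpa [hv.1, hv.2] using isOpen_lt (f := fun a => v 0 * a + v 1 * uu w a)
        (g := fun _ => (1 : ℝ)) (by fun_prop) continuous_const
    · convert isOpen_univ
      exact eq_univ_of_forall fun a h1 h2 => absurd ⟨h1, h2⟩ hv
  have hne : (JJ F w).Nonempty := by
    obtain ⟨⟨a, c⟩, hy⟩ := act_nonempty h.opt h.mem h.p1
    exact ⟨a, ((h.mem_act a c).1 hy).1⟩
  have hbb : BddBelow (JJ F w) := ⟨0, fun a ha => ha.1.le⟩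
  have hba : BddAbove (JJ F w) := ⟨1 / w 0, fun a ha => by
    have := ha.2.1
    simp only [uu, div_pos_iff_of_pos_right h.p1] at this
    rw [le_div_iff₀ h.p0]; linarith⟩
  have hconv : ∀ a ∈ JJ F w, ∀ b ∈ JJ F w, ∀ x ∈ Icc a b, x ∈ JJ F w := by
    intro a ha b hb x hx
    rcases eq_or_lt_of_le (hx.1.trans hx.2) with hab | hab
    · rwa [le_antisymm (hab ▸ hx.2) hx.1]
    set t := (b - x) / (b - a) with ht
    have t0 : 0 ≤ t := div_nonneg (by linarith [hx.2]) (by linarith)
    have t1 : t ≤ 1 := by rw [ht, div_le_one (by linarith)]; linarith [hx.1]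
    have ex : x = t * a + (1 - t) * b := by
      have : t * (b - a) = b - x := by rw [ht, div_mul_cancel₀]; linarith
      linarith
    have hu : uu w x = t * uu w a + (1 - t) * uu w b := by rw [ex]; simp only [uu]; ring
    have key : ∀ p q : ℝ, p < 1 → q < 1 → t * p + (1 - t) * q < 1 := fun p q hp hq => by
      rcases eq_or_lt_of_le t0 with e | e
      · rw [← e]; linarith
      · nlinarith
    have key0 : ∀ p q : ℝ, 0 < p → 0 < q → 0 < t * p + (1 - t) * q := fun p q hp hq => by
      rcases eq_or_lt_of_le t0 with e | e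
      · rw [← e]; linarith
      · nlinarith
    refine ⟨by linarith [ha.1, hx.1], ?_, fun v hv h2 hne => ?_, ?_⟩
    · rw [hu]; exact key0 _ _ ha.2.1 hb.2.1
    · rw [hu, ex]
      linarith [key _ _ (ha.2.2.1 v hv h2 hne) (hb.2.2.1 v hv h2 hne)]
    · rw [ex]
      exact lt_of_lt_of_le (key0 _ _ ha.2.2.2 hb.2.2.2) (LL_concave h.opt.good w t0 t1)
  have hsub : JJ F w ⊆ Ioo (lo F w) (hi F w) := by
    intro a ha
    obtain ⟨ε, hε, hball⟩ := Metric.isOpen_iff.1 hopen a ha
    have m1 : a - ε / 2 ∈ JJ F w := hball (by rw [Metric.mem_ball, Real.dist_eq]; rw [abs_lt]; constructor <;> linarith)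
    have m2 : a + ε / 2 ∈ JJ F w := hball (by rw [Metric.mem_ball, Real.dist_eq]; rw [abs_lt]; constructor <;> linarith)
    exact ⟨lt_of_le_of_lt (csInf_le hbb m1) (by linarith),
      lt_of_lt_of_le (by linarith) (le_csSup hba m2)⟩
  obtain ⟨a₀, ha₀⟩ := hne
  refine ⟨(hsub ha₀).1.trans (hsub ha₀).2, Subset.antisymm hsub fun x hx => ?_⟩
  obtain ⟨a, ha, hax⟩ := exists_lt_of_csInf_lt ⟨a₀, ha₀⟩ hx.1
  obtain ⟨b, hb, hxb⟩ := exists_lt_of_lt_csSup ⟨a₀, ha₀⟩ hx.2
  exact hconv a ha b hb x ⟨hax.le, hxb.le⟩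

theorem lo_lt_hi (h : Strip N F w) : lo F w < hi F w := h.JJ_eq.1

theorem mem_JJ (h : Strip N F w) {a : ℝ} : a ∈ JJ F w ↔ a ∈ Ioo (lo F w) (hi F w) := by
  rw [← h.JJ_eq.2]

theorem closure_facts (h : Strip N F w) {a : ℝ} (ha : a ∈ Icc (lo F w) (hi F w)) :
    0 ≤ a ∧ 0 ≤ uu w a ∧ (∀ v ∈ F, v 2 = 0 → v ≠ w → v 0 * a + v 1 * uu w a ≤ 1) ∧
      0 ≤ LL F w a := by
  rw [← closure_Ioo h.lo_lt_hi.ne, ← h.JJ_eq.2] at ha
  exact ⟨le_on_closure (f := fun _ => (0 : ℝ)) (g := id) (fun x hx => (hx.1).le)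
      continuousOn_const continuousOn_id ha,
    le_on_closure (f := fun _ => (0 : ℝ)) (fun x hx => (hx.2.1).le) continuousOn_const
      (continuous_uu w).continuousOn ha,
    fun v hv h2 hne => le_on_closure (f := fun x => v 0 * x + v 1 * uu w x) (g := fun _ => (1 : ℝ))
      (fun x hx => (hx.2.2.1 v hv h2 hne).le) (by fun_prop) continuousOn_const ha,
    le_on_closure (f := fun _ => (0 : ℝ)) (fun x hx => (hx.2.2.2).le) continuousOn_const
      (continuous_LL h.opt.good w).continuousOn ha⟩

theorem integral_act (h : Strip N F w) {φ : ℝ → ℝ} (hφ : Continuous φ) :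
    ∫ y in act F w, φ y.1 * (4 - y.1 - ub w y - y.2) =
      -∫ a in (lo F w)..(hi F w), φ a * (LL F w a * rho F w a) := by
  have hint := integrableOn_act h.opt h.mem h.p1
    (f := fun y => φ y.1 * (4 - y.1 - ub w y - y.2)) (by have := continuous_ub w; fun_prop)
  have hint' := (integrable_indicator_iff (isOpen_act F w).measurableSet).2 hint
  rw [← integral_indicator (isOpen_act F w).measurableSet, Measure.volume_eq_prod]
  rw [Measure.volume_eq_prod] at hint'
  rw [integral_prod _ hint', intervalIntegral.integral_of_le h.lo_lt_hi.le,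
    integral_Ioc_eq_integral_Ioo, ← integral_neg, ← integral_indicator measurableSet_Ioo]
  refine integral_congr_ae (.of_forall fun a => ?_)
  by_cases ha : a ∈ Ioo (lo F w) (hi F w)
  · rw [indicator_of_mem ha]
    have e : (fun c => (act F w).indicator (fun y => φ y.1 * (4 - y.1 - ub w y - y.2)) (a, c)) =
        (Ioo 0 (LL F w a)).indicator fun c => φ a * (4 - a - uu w a - c) := by
      funext c
      classical
      simp only [indicator, h.mem_act, ub_eq h.p2]
      simp [h.mem_JJ.2 ha]
    simp only [e]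
    have hL : 0 ≤ LL F w a := (h.mem_JJ.2 ha).2.2.2.le
    rw [integral_indicator measurableSet_Ioo, ← integral_Ioc_eq_integral_Ioo,
      ← intervalIntegral.integral_of_le hL, intervalIntegral.integral_const_mul,
      intervalIntegral.integral_sub intervalIntegrable_const
        (Continuous.intervalIntegrable (u := fun x : ℝ => x) continuous_id' _ _),
      intervalIntegral.integral_const, integral_id]
    simp only [rho, smul_eq_mul]
    ring
  · rw [indicator_of_notMem ha]
    have : ∀ c, (a, c) ∉ act F w := fun c hc => ha (h.mem_JJ.1 ((h.mem_act a c).1 hc).1)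
    simp [indicator_of_notMem, this]

theorem moment0 (h : Strip N F w) :
    ∫ a in (lo F w)..(hi F w), LL F w a * rho F w a = 0 := by
  have := facet_eq h.opt h.mem h.p1 (d := ![1, 0, 0]) (Or.inl rfl) (Or.inl rfl)
  have e : ∀ y : ℝ × ℝ, lin ![1, 0, 0] y = (fun _ : ℝ => (1 : ℝ)) y.1 := fun y => by simp [lin]
  simp only [e] at this
  rw [h.integral_act (φ := fun _ => 1) continuous_const, neg_eq_zero] at this
  simpa using this

theorem moment1 (h : Strip N F w) :
    ∫ a in (lo F w)..(hi F w), a * (LL F w a * rho F w a) = 0 := by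
  have := facet_eq h.opt h.mem h.p1 (d := ![0, -1, 0]) (Or.inr h.p0) (Or.inl rfl)
  have e : ∀ y : ℝ × ℝ, lin ![0, -1, 0] y = (fun a : ℝ => a) y.1 := fun y => by simp [lin]
  simp only [e] at this
  rw [h.integral_act (φ := fun a => a) continuous_id, neg_eq_zero] at this
  exact this

theorem piece_le {v : R3} (hv : v ∈ top F) {a b : ℝ}
    (hb : LL F w b = ell v b (uu w b)) : LL F w a ≤ LL F w b + slope' v w * (a - b) := by
  rw [hb, ← ell_affine]
  exact Lh_le hv _ _

/-- At the right end every active constraint gives a nonpositive slope. -/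
theorem slope_hi (h : Strip N F w) {v : R3} (hv : v ∈ top F)
    (he : LL F w (hi F w) = ell v (hi F w) (uu w (hi F w))) :
    1 - w 0 / w 1 + slope' v w / 2 ≤ 0 := by
  by_contra hτ
  push Not at hτ
  have hg := h.opt.good
  refine not_mono h.lo_lt_hi (continuous_LL hg w) (continuous_rho hg w)
    (fun a ha => (h.mem_JJ.2 ha).2.2.2) ?_ h.moment0 h.moment1
  intro a ha b hb hab
  have hlt : rho F w a < rho F w (hi F w) := by
    have h1 := piece_le hv (a := a) he
    have e : rho F w (hi F w) - rho F w a =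
        (1 - w 0 / w 1) * (hi F w - a) + (LL F w (hi F w) - LL F w a) / 2 := by
      simp only [rho, uu]; ring
    nlinarith [mul_pos hτ (show 0 < hi F w - a by linarith [hb.2])]
  rcases eq_or_lt_of_le hb.2 with rfl | hbe
  · exact hlt
  set t := (hi F w - b) / (hi F w - a)
  have t0 : 0 < t := div_pos (by linarith) (by linarith)
  have t1 : t < 1 := by simp only [t]; rw [div_lt_one (by linarith)]; linarith
  have eb : b = t * a + (1 - t) * hi F w := by
    have : t * (hi F w - a) = hi F w - b := div_mul_cancel₀ _ (by linarith)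
    linarith
  have := rho_concave hg w (a := a) (b := hi F w) t0.le t1.le
  rw [← eb] at this
  nlinarith

/-- At the left end every active constraint gives a nonnegative slope. -/
theorem slope_lo (h : Strip N F w) {v : R3} (hv : v ∈ top F)
    (he : LL F w (lo F w) = ell v (lo F w) (uu w (lo F w))) :
    0 ≤ 1 - w 0 / w 1 + slope' v w / 2 := by
  by_contra hτ
  push Not at hτ
  have hg := h.opt.good
  have m0 := h.moment0
  have m1 := h.moment1
  refine not_mono h.lo_lt_hi (continuous_LL hg w) (continuous_rho hg w).neg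
    (fun a ha => (h.mem_JJ.2 ha).2.2.2) ?_ (by simpa [mul_neg] using m0)
    (by simpa [mul_neg] using m1)
  intro a ha b hb hab
  have hlt : rho F w b < rho F w (lo F w) := by
    have h1 := piece_le hv (a := b) he
    have e : rho F w (lo F w) - rho F w b =
        (1 - w 0 / w 1) * (lo F w - b) + (LL F w (lo F w) - LL F w b) / 2 := by
      simp only [rho, uu]; ring
    nlinarith [mul_pos_of_neg_of_neg hτ (show lo F w - b < 0 by linarith [ha.1])]
  simp only [Pi.neg_apply, neg_lt_neg_iff]
  rcases eq_or_lt_of_le ha.1 with rfl | hsa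
  · exact hlt
  set t := (b - a) / (b - lo F w)
  have t0 : 0 < t := div_pos (by linarith) (by linarith)
  have t1 : t < 1 := by simp only [t]; rw [div_lt_one (by linarith)]; linarith
  have eb : a = t * lo F w + (1 - t) * b := by
    have : t * (b - lo F w) = b - a := div_mul_cancel₀ _ (by linarith)
    linarith
  have := rho_concave hg w (a := lo F w) (b := b) t0.le t1.le
  rw [← eb] at this
  nlinarith

/-- With a free constraint the fibre mean is constant along the strip. -/
theorem rho_zero (h : Strip N F w) (hc : F.card < N) {a : ℝ}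
    (ha : a ∈ Icc (lo F w) (hi F w)) : rho F w a = 0 := by
  set s := lo F w
  set e := hi F w
  have hg := h.opt.good
  have hse : s < e := h.lo_lt_hi
  have hL := continuous_LL hg w
  have hρ := continuous_rho hg w
  have hLp : ∀ a ∈ Ioo s e, 0 < LL F w a := fun a ha => (h.mem_JJ.2 ha).2.2.2
  have hLnn : ∀ a ∈ Icc s e, 0 ≤ LL F w a := fun a ha => (h.closure_facts ha).2.2.2
  set P : Set ℝ := {a ∈ Icc s e | 0 ≤ rho F w a} with hP
  have hPne : P.Nonempty := by
    by_contra hno
    have hneg : ∀ a ∈ Icc s e, rho F w a < 0 := fun a ha => lt_of_not_ge fun hge => hno ⟨a, ha, hge⟩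
    have := intervalIntegral.integral_pos hse (f := fun a => -(LL F w a * rho F w a)) (by fun_prop)
      (fun a ha => neg_nonneg.2 (mul_nonpos_of_nonneg_of_nonpos (hLnn a (Ioc_subset_Icc_self ha))
        (hneg a (Ioc_subset_Icc_self ha)).le))
      ⟨(s + e) / 2, ⟨by linarith, by linarith⟩, neg_pos.2 (mul_neg_of_pos_of_neg
        (hLp _ ⟨by linarith, by linarith⟩) (hneg _ ⟨by linarith, by linarith⟩))⟩
    rw [intervalIntegral.integral_neg, h.moment0] at this
    simp at this
  have hPc : IsCompact P := isCompact_Icc.inter_right (isClosed_le continuous_const hρ)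
  set r₁ := sInf P
  set r₂ := sSup P
  have hr₁ : r₁ ∈ P := hPc.sInf_mem hPne
  have hr₂ : r₂ ∈ P := hPc.sSup_mem hPne
  have hin : ∀ a, r₁ ≤ a → a ≤ r₂ → 0 ≤ rho F w a := by
    intro a h1 h2
    rcases eq_or_lt_of_le (h1.trans h2) with hr | hr
    · rw [le_antisymm (hr ▸ h2) h1]; exact hr₁.2
    set t := (r₂ - a) / (r₂ - r₁)
    have t0 : 0 ≤ t := div_nonneg (by linarith) (by linarith)
    have t1 : t ≤ 1 := by simp only [t]; rw [div_le_one (by linarith)]; linarith
    have eb : a = t * r₁ + (1 - t) * r₂ := by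
      have : t * (r₂ - r₁) = r₂ - a := div_mul_cancel₀ _ (by linarith)
      linarith
    have := rho_concave hg w (a := r₁) (b := r₂) t0 t1
    rw [← eb] at this
    nlinarith [hr₁.2, hr₂.2]
  have hout : ∀ a ∈ Icc s e, a < r₁ ∨ r₂ < a → rho F w a < 0 := fun a ha hh =>
    lt_of_not_ge fun hge => hh.elim (fun h1 => not_le.2 h1 (csInf_le hPc.bddBelow ⟨ha, hge⟩))
      fun h2 => not_le.2 h2 (le_csSup hPc.bddAbove ⟨ha, hge⟩)
  have hnn : ∀ a ∈ Icc s e, 0 ≤ min (a - r₁) (r₂ - a) * rho F w a := by
    intro a ha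
    by_cases hh : a < r₁ ∨ r₂ < a
    · refine mul_nonneg_of_nonpos_of_nonpos ?_ (hout a ha hh).le
      rcases hh with hh | hh
      · exact (min_le_left _ _).trans (by linarith)
      · exact (min_le_right _ _).trans (by linarith)
    · push Not at hh
      exact mul_nonneg (le_min (by linarith) (by linarith)) (hin a hh.1 hh.2)
  have hv := var_lin h.opt h.mem h.p1 (d := ![-r₁, -1, 0]) (d' := ![r₂, 1, 0]) (Or.inr h.p0)
    (Or.inl le_rfl) (Or.inr h.p0) (Or.inl le_rfl) (Or.inr hc)
  have el : ∀ y : ℝ × ℝ, min (lin ![-r₁, -1, 0] y) (lin ![r₂, 1, 0] y) =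
      (fun a => min (a - r₁) (r₂ - a)) y.1 := fun y => by simp [lin]; ring_nf
  simp only [el] at hv
  rw [h.integral_act (φ := fun a => min (a - r₁) (r₂ - a)) (by fun_prop), neg_nonneg] at hv
  have hzero : ∀ a ∈ Ioo s e, rho F w a = 0 := by
    intro a ha
    by_contra hne
    have hac := Ioo_subset_Icc_self ha
    have hpos : 0 < min (a - r₁) (r₂ - a) * rho F w a := by
      rcases lt_or_gt_of_ne hne with hneg | hp
      · refine mul_pos_of_neg_of_neg ?_ hneg
        by_contra hm
        push Not at hm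
        have := le_min_iff.1 hm
        linarith [hin a (by linarith) (by linarith)]
      · refine mul_pos ?_ hp
        have hev : ∀ᶠ b in 𝓝 a, 0 < rho F w b ∧ b ∈ Ioo s e :=
          (continuousAt_const.eventually_lt hρ.continuousAt hp).and (isOpen_Ioo.mem_nhds ha)
        obtain ⟨δ, hδ, hball⟩ := Metric.eventually_nhds_iff.1 hev
        obtain ⟨p1, q1⟩ := hball (y := a - δ / 2) (by rw [Real.dist_eq, abs_lt]; constructor <;> linarith)
        obtain ⟨p2, q2⟩ := hball (y := a + δ / 2) (by rw [Real.dist_eq, abs_lt]; constructor <;> linarith)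
        have := csInf_le hPc.bddBelow (show a - δ / 2 ∈ P from ⟨Ioo_subset_Icc_self q1, p1.le⟩)
        have := le_csSup hPc.bddAbove (show a + δ / 2 ∈ P from ⟨Ioo_subset_Icc_self q2, p2.le⟩)
        exact lt_min (by linarith) (by linarith)
    have := intervalIntegral.integral_pos hse
      (f := fun a => min (a - r₁) (r₂ - a) * (LL F w a * rho F w a)) (by fun_prop)
      (fun a ha => by
        have h0 := mul_nonneg (hLnn a (Ioc_subset_Icc_self ha)) (hnn a (Ioc_subset_Icc_self ha))
        linarith [h0, (show min (a - r₁) (r₂ - a) * (LL F w a * rho F w a) =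
          LL F w a * (min (a - r₁) (r₂ - a) * rho F w a) by ring)])
      ⟨a, hac, by
        have h0 := mul_pos (hLp a ha) hpos
        linarith [(show min (a - r₁) (r₂ - a) * (LL F w a * rho F w a) =
          LL F w a * (min (a - r₁) (r₂ - a) * rho F w a) by ring)]⟩
    linarith
  have := EqOn.closure (f := rho F w) (g := fun _ => (0 : ℝ)) hzero hρ continuous_const
  rw [closure_Ioo hse.ne] at this
  exact this ha

/-- A constraint attaining the fibre length inside the strip attains it along the whole strip. -/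
theorem piece_const (h : Strip N F w) (hc : F.card < N) {v : R3} (hv : v ∈ top F) {m : ℝ}
    (hm : m ∈ JJ F w) (he : LL F w m = ell v m (uu w m)) {a : ℝ}
    (ha : a ∈ Icc (lo F w) (hi F w)) : LL F w a = ell v a (uu w a) := by
  have hm' := Ioo_subset_Icc_self (h.mem_JJ.1 hm)
  have hms := h.mem_JJ.1 hm
  have aff : ∀ x ∈ Icc (lo F w) (hi F w), ell v x (uu w x) - LL F w x =
      (slope' v w - 2 * (w 0 / w 1 - 1)) * (x - m) := by
    intro x hx
    have r1 := h.rho_zero hc hx
    have r2 := h.rho_zero hc hm'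
    have := ell_affine (v := v) w x m
    simp only [rho] at r1 r2
    have eu : uu w x - uu w m = -(w 0 / w 1) * (x - m) := by simp only [uu]; ring
    linarith
  have n1 := aff (lo F w) ⟨le_rfl, h.lo_lt_hi.le⟩
  have n2 := aff (hi F w) ⟨h.lo_lt_hi.le, le_rfl⟩
  have g1 : LL F w (lo F w) ≤ ell v (lo F w) (uu w (lo F w)) := Lh_le hv _ _
  have g2 : LL F w (hi F w) ≤ ell v (hi F w) (uu w (hi F w)) := Lh_le hv _ _
  have hβ : slope' v w - 2 * (w 0 / w 1 - 1) = 0 := by
    by_contra hne
    rcases lt_or_gt_of_ne hne with hb | hb <;> nlinarith [hms.1, hms.2]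
  have := aff a ha
  rw [hβ] at this
  linarith

theorem slope_eq (h : Strip N F w) (hc : F.card < N) {v : R3} (hv : v ∈ top F) {m : ℝ}
    (hm : m ∈ JJ F w) (he : LL F w m = ell v m (uu w m)) :
    slope' v w = 2 * (w 0 / w 1 - 1) := by
  have hs : lo F w ∈ Icc (lo F w) (hi F w) := ⟨le_rfl, h.lo_lt_hi.le⟩
  have hh : hi F w ∈ Icc (lo F w) (hi F w) := ⟨h.lo_lt_hi.le, le_rfl⟩
  have a1 := h.piece_const hc hv hm he hs
  have a2 := h.piece_const hc hv hm he hh
  have r1 := h.rho_zero hc hs
  have r2 := h.rho_zero hc hh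
  have := ell_affine (v := v) w (hi F w) (lo F w)
  simp only [rho] at r1 r2
  have eu : uu w (hi F w) - uu w (lo F w) = -(w 0 / w 1) * (hi F w - lo F w) := by
    simp only [uu]; ring
  have : (slope' v w - 2 * (w 0 / w 1 - 1)) * (hi F w - lo F w) = 0 := by linarith
  rcases mul_eq_zero.1 this with h0 | h0
  · linarith
  · linarith [h.lo_lt_hi]

end Strip

end Vale.Agent.P254u
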