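import Vale.Agent.P254u.Second
import Vale.Agent.P254.Simplex

/-!
# P254: unconditional bodies in three dimensions have smaller isotropic constant than the simplex
-/

namespace Vale.Agent.P254u

open MeasureTheory Set
open Vale.Agent.P254 (centroid covMat isoConst simplex simplex_det)

/-- Change the sign of one coordinate. -/
def flipAt (k : Fin 3) (x : R3) : R3 := fun i => if i = k then -x i else x i

theorem flipAt_eq_update (k : Fin 3) (x : R3) : flipAt k x = Function.update x k (-x k) := by
  funext i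
  rcases eq_or_ne i k with rfl | h <;> simp [flipAt, *]

theorem flipAt_flipAt (k : Fin 3) (x : R3) : flipAt k (flipAt k x) = x := by
  funext i; simp only [flipAt]; split_ifs <;> simp

theorem flipAt_pres (k : Fin 3) : MeasurePreserving (flipAt k) volume volume := by
  refine volume_preserving_pi (f := fun i (t : ℝ) => if i = k then -t else t) fun i => ?_
  by_cases hi : i = k
  · simp only [hi, if_true]; exact Measure.measurePreserving_neg volume
  · simp only [hi, if_false]; exact MeasurePreserving.id volume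

theorem flipAt_emb (k : Fin 3) : MeasurableEmbedding (flipAt k) :=
  Continuous.measurableEmbedding (continuous_pi fun i => by
    simp only [flipAt]; split_ifs <;> fun_prop) fun x y h => by
      rw [← flipAt_flipAt k x, h, flipAt_flipAt]

theorem preimage_flipAt {S : Set R3} {k : Fin 3} (h : ∀ x ∈ S, flipAt k x ∈ S) :
    flipAt k ⁻¹' S = S :=
  Subset.antisymm (fun x hx => flipAt_flipAt k x ▸ h _ hx) fun x hx => h x hx

theorem integral_flipAt {S : Set R3} {k : Fin 3} (h : ∀ x ∈ S, flipAt k x ∈ S) (f : R3 → ℝ) :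
    ∫ x in S, f (flipAt k x) = ∫ x in S, f x := by
  have := (flipAt_pres k).setIntegral_preimage_emb (flipAt_emb k) f S
  rwa [preimage_flipAt h] at this

theorem halve {S : Set R3} (hS : IsCompact S) {k : Fin 3} (h : ∀ x ∈ S, flipAt k x ∈ S)
    {f : R3 → ℝ} (hf : Continuous f) (hfk : ∀ x, f (flipAt k x) = f x) :
    ∫ x in S, f x = 2 * ∫ x in S ∩ {x | 0 ≤ x k}, f x := by
  have hT : MeasurableSet {x : R3 | 0 ≤ x k} :=
    measurableSet_le measurable_const (measurable_pi_apply k)
  have hd := integral_inter_add_sdiff hT (hf.continuousOn.integrableOn_compact (μ := volume) hS)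
  have hne : ∀ᵐ x : R3, x k ≠ 0 := measure_eq_zero_iff_ae_notMem.1 (null_coord k)
  have hset : (S \ {x : R3 | 0 ≤ x k} : Set R3) =ᵐ[volume]
      (flipAt k ⁻¹' (S ∩ {x | 0 ≤ x k}) : Set R3) := by
    filter_upwards [hne] with x hx
    apply propext
    show (x ∈ S ∧ ¬0 ≤ x k) ↔ (flipAt k x ∈ S ∧ 0 ≤ flipAt k x k)
    have e : flipAt k x k = -x k := by simp [flipAt]
    rw [e, neg_nonneg]
    constructor
    · exact fun ⟨a, b⟩ => ⟨h x a, (not_le.1 b).le⟩
    · exact fun ⟨a, b⟩ => ⟨flipAt_flipAt k x ▸ h _ a, not_le.2 (lt_of_le_of_ne b hx)⟩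
  have he : ∫ x in S \ {x : R3 | 0 ≤ x k}, f x = ∫ x in S ∩ {x : R3 | 0 ≤ x k}, f x := by
    rw [setIntegral_congr_set hset]
    have := (flipAt_pres k).setIntegral_preimage_emb (flipAt_emb k) f (S ∩ {x | 0 ≤ x k})
    simpa only [hfk] using this
  rw [he] at hd
  linarith

/-- The part of a set in the positive orthant. -/
def corner (K : Set R3) : Set R3 := K ∩ {x | ∀ k, 0 ≤ x k}

theorem shrink_mem {K : Set R3} (hconv : Convex ℝ K) (hflip : ∀ x ∈ K, ∀ k, flipAt k x ∈ K)
    {x : R3} (hx : x ∈ K) (k : Fin 3) {r : ℝ} (hr : |r| ≤ x k) :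
    Function.update x k r ∈ K := by
  obtain ⟨hr1, hr2⟩ := abs_le.1 hr
  rcases eq_or_lt_of_le ((abs_nonneg r).trans hr) with h0 | h0
  · have : r = x k := by linarith
    rw [this, Function.update_eq_self]; exact hx
  set t := (x k + r) / (2 * x k) with ht
  have t0 : 0 ≤ t := div_nonneg (by linarith) (by linarith)
  have t1 : 0 ≤ 1 - t := by rw [sub_nonneg, ht, div_le_one (by linarith)]; linarith
  convert hconv hx (hflip x hx k) t0 t1 (by ring) using 1
  funext i
  rcases eq_or_ne i k with rfl | hi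
  · simp [flipAt, ht]; field_simp; ring
  · simp [flipAt, hi]; ring

theorem downBody_corner {K : Set R3} (hcomp : IsCompact K) (hconv : Convex ℝ K)
    (hflip : ∀ x ∈ K, ∀ k, flipAt k x ∈ K) (hne : K.Nonempty) : DownBody (corner K) := by
  have hcl : IsClosed {x : R3 | ∀ k, 0 ≤ x k} := by
    have : {x : R3 | ∀ k, 0 ≤ x k} = ⋂ k, {x : R3 | 0 ≤ x k} := by ext; simp
    rw [this]
    exact isClosed_iInter fun k => isClosed_le continuous_const (continuous_apply k)
  have hcv : Convex ℝ {x : R3 | ∀ k, 0 ≤ x k} := fun x hx y hy a b ha hb _ k =>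
    add_nonneg (mul_nonneg ha (hx k)) (mul_nonneg hb (hy k))
  refine ⟨hcomp.inter_right hcl, hconv.inter hcv, fun x hx => hx.2, fun x hx y hy hyx => ?_, ?_⟩
  · refine ⟨?_, hy⟩
    have m0 := shrink_mem hconv hflip hx.1 0 (r := y 0) (by rw [abs_of_nonneg (hy 0)]; exact hyx 0)
    have m1 := shrink_mem hconv hflip m0 1 (r := y 1) (by
      rw [abs_of_nonneg (hy 1)]; simpa using hyx 1)
    have m2 := shrink_mem hconv hflip m1 2 (r := y 2) (by
      rw [abs_of_nonneg (hy 2)]; simpa [Function.update_apply] using hyx 2)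
    convert m2 using 1
    funext i; fin_cases i <;> simp
  · obtain ⟨x, hx⟩ := hne
    refine ⟨?_, fun k => le_rfl⟩
    have := hconv hx (hflip _ (hflip _ (hflip x hx 0) 1) 2) (by norm_num : (0 : ℝ) ≤ 1 / 2)
      (by norm_num : (0 : ℝ) ≤ 1 / 2) (by norm_num)
    convert this using 1
    funext i; fin_cases i <;> simp [flipAt]

theorem eighth {K : Set R3} (hcomp : IsCompact K) (hflip : ∀ x ∈ K, ∀ k, flipAt k x ∈ K)
    {f : R3 → ℝ} (hf : Continuous f) (hfk : ∀ k x, f (flipAt k x) = f x) :
    ∫ x in K, f x = 8 * ∫ x in corner K, f x := by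
  have hcl : ∀ k, IsClosed {x : R3 | 0 ≤ x k} := fun k =>
    isClosed_le continuous_const (continuous_apply k)
  have e0 := halve hcomp (fun x hx => hflip x hx 0) hf (hfk 0)
  have e1 := halve (hcomp.inter_right (hcl 0)) (k := 1) (fun x hx => ⟨hflip x hx.1 1, by
    show 0 ≤ flipAt 1 x 0; simpa [flipAt] using hx.2⟩) hf (hfk 1)
  have e2 := halve ((hcomp.inter_right (hcl 0)).inter_right (hcl 1)) (k := 2)
    (fun x hx => ⟨⟨hflip x hx.1.1 2, by show 0 ≤ flipAt 2 x 0; simpa [flipAt] using hx.1.2⟩,
      by show 0 ≤ flipAt 2 x 1; simpa [flipAt] using hx.2⟩) hf (hfk 2)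
  have hc : K ∩ {x : R3 | 0 ≤ x 0} ∩ {x | 0 ≤ x 1} ∩ {x | 0 ≤ x 2} = corner K := by
    ext x; simp [corner, Fin.forall_fin_succ, and_assoc]
  rw [e0, e1, e2, hc]; ring

theorem centroid_zero {K : Set R3} (hflip : ∀ x ∈ K, ∀ k, flipAt k x ∈ K) (i : Fin 3) :
    centroid K i = 0 := by
  have h := integral_flipAt (fun x hx => hflip x hx i) fun x => x i
  simp [flipAt, integral_neg] at h
  have : (∫ x in K, x i) = 0 := by linarith
  simp [centroid, this]

theorem covMat_diag {K : Set R3} (hflip : ∀ x ∈ K, ∀ k, flipAt k x ∈ K) :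
    covMat K = Matrix.diagonal fun i => (∫ x in K, x i ^ 2) / volume.real K := by
  ext i j
  simp only [covMat, centroid_zero hflip, sub_zero]
  rcases eq_or_ne i j with rfl | hij
  · simp [sq]
  · have h := integral_flipAt (fun x hx => hflip x hx i) fun x => x i * x j
    simp [flipAt, Ne.symm hij, integral_neg] at h
    have : (∫ x in K, x i * x j) = 0 := by linarith
    simp [Matrix.diagonal_apply_ne _ hij, this]

theorem second_all {C : Set R3} (h : DownBody C) (hV : 0 < volume.real C) (k : Fin 3)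
    (hM : 0 < ∫ x in C, x k) :
    volume.real C * ∫ x in C, x k ^ 2 ≤ 8 / 5 * (∫ x in C, x k) ^ 2 := by
  set σ : Equiv.Perm (Fin 3) := Equiv.swap 0 k with hσ
  set P : R3 → R3 := fun x i => x (σ i) with hP
  have hinv : ∀ x, P (P x) = x := fun x => funext fun i => by simp [hP, hσ]
  have hC' : DownBody (P ⁻¹' C) := by
    refine ⟨?_, ?_, fun x hx i => ?_, fun x hx y hy hyx => ?_, ?_⟩
    · have : P ⁻¹' C = P '' C := Subset.antisymm (fun x hx => ⟨P x, hx, hinv x⟩) (by
        rintro _ ⟨x, hx, rfl⟩; show P (P x) ∈ C; rwa [hinv])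
      rw [this]; exact h.cpt.image (continuous_pi fun i => continuous_apply _)
    · intro x hx y hy a b ha hb hab
      exact h.conv hx hy ha hb hab
    · simpa [hP, hσ] using h.pos _ hx (σ i)
    · exact h.down _ hx (P y) (fun i => hy _) fun i => hyx _
    · exact h.zero
  have hpre := fun g : R3 → ℝ => (permPres σ).setIntegral_preimage_emb (permEmb σ) g C
  have e1 := hpre fun x => x k
  have e2 := hpre fun x => x k ^ 2
  have hk : σ k = 0 := by simp [hσ]
  simp only [hk] at e1 e2
  have ev : volume.real (P ⁻¹' C) = volume.real C := by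
    rw [measureReal_def, measureReal_def]
    exact congrArg _ ((permPres σ).measure_preimage_emb (permEmb σ) C)
  have := hC'.second_zero (ev ▸ hV) (e1 ▸ hM)
  rw [← e1, ← e2, ← ev]
  exact this

/-- Every unconditional convex body in three dimensions has isotropic constant strictly below that
of the simplex. -/
theorem isoConst_lt {K : Set R3} (hconv : Convex ℝ K) (hcomp : IsCompact K)
    (hint : (interior K).Nonempty) (hflip : ∀ x ∈ K, ∀ i, Function.update x i (-x i) ∈ K) :
    isoConst K < isoConst (simplex 3) := by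
  have hfl : ∀ x ∈ K, ∀ k, flipAt k x ∈ K := fun x hx k => by
    rw [flipAt_eq_update]; exact hflip x hx k
  have hC := downBody_corner hcomp hconv hfl (hint.mono interior_subset)
  set C := corner K
  set V := volume.real C with hVd
  set M : Fin 3 → ℝ := fun k => ∫ x in C, x k with hMd
  set Q : Fin 3 → ℝ := fun k => ∫ x in C, x k ^ 2 with hQd
  have hVK : volume.real K = 8 * V := by
    have := eighth hcomp hfl (f := fun _ => (1 : ℝ)) continuous_const fun _ _ => rfl
    simpa using this
  have hQK : ∀ k, ∫ x in K, x k ^ 2 = 8 * Q k := fun k =>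
    eighth hcomp hfl (by fun_prop) fun j x => by simp only [flipAt]; split_ifs <;> simp
  have hK0 : 0 < volume.real K := by
    refine ENNReal.toReal_pos (ne_of_gt ?_) hcomp.measure_lt_top.ne
    exact (isOpen_interior.measure_pos volume hint).trans_le (measure_mono interior_subset)
  have hV : 0 < V := by linarith
  have hM : ∀ k, 0 < M k := by
    intro k
    show 0 < ∫ x in C, x k
    rw [setIntegral_pos_iff_support_of_nonneg_ae]
    · have h1 : volume ((Function.support fun x : R3 => x k) ∩ C) = volume C := by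
        refine measure_congr ?_
        filter_upwards [measure_eq_zero_iff_ae_notMem.1 (null_coord k)] with x hx
        exact propext ⟨fun h => h.2, fun h => ⟨hx, h⟩⟩
      rw [h1]
      exact (ENNReal.toReal_pos_iff.1 hV).1
    · filter_upwards [ae_restrict_mem hC.cpt.measurableSet] with x hx using hC.pos x hx k
    · exact (continuous_apply k).continuousOn.integrableOn_compact hC.cpt
  have hQ0 : ∀ k, 0 ≤ Q k := fun k =>
    setIntegral_nonneg hC.cpt.measurableSet fun x _ => sq_nonneg _
  have h8 : 8 * (M 0 * M 1 * M 2) ≤ V ^ 4 := by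
    have := hC.eight_le
    rwa [Fin.prod_univ_three] at this
  have hq : ∀ k, V * Q k ≤ 8 / 5 * M k ^ 2 := fun k => second_all hC hV k (hM k)
  have hdet : (covMat K).det / volume.real K ^ 2 = Q 0 * Q 1 * Q 2 / (64 * V ^ 5) := by
    rw [covMat_diag hfl, Matrix.det_diagonal, Fin.prod_univ_three, hQK, hQK, hQK, hVK]
    field_simp
    ring
  have hbound : Q 0 * Q 1 * Q 2 / (64 * V ^ 5) ≤ 1 / 1000 := by
    rw [div_le_div_iff₀ (by positivity) (by norm_num)]
    have p0 : ∀ k, 0 ≤ V * Q k := fun k => mul_nonneg hV.le (hQ0 k)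
    have hprod : V * Q 0 * (V * Q 1) * (V * Q 2) ≤
        8 / 5 * M 0 ^ 2 * (8 / 5 * M 1 ^ 2) * (8 / 5 * M 2 ^ 2) :=
      mul_le_mul (mul_le_mul (hq 0) (hq 1) (p0 1) (by positivity)) (hq 2) (p0 2) (by positivity)
    have h0 : (0 : ℝ) ≤ 8 * (M 0 * M 1 * M 2) := by
      have := hM 0; have := hM 1; have := hM 2; positivity
    have hsq := pow_le_pow_left₀ h0 h8 2
    have hmain : V ^ 3 * (Q 0 * Q 1 * Q 2 * 1000) ≤ V ^ 3 * (1 * (64 * V ^ 5)) := by
      nlinarith [hprod, hsq]
    exact le_of_mul_le_mul_left hmain (by positivity)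
  have hnn : 0 ≤ (covMat K).det / volume.real K ^ 2 := by
    rw [hdet]; have := hQ0 0; have := hQ0 1; have := hQ0 2; positivity
  refine Real.rpow_lt_rpow hnn ?_ (by norm_num)
  rw [hdet, simplex_det]
  refine lt_of_le_of_lt hbound ?_
  norm_num [Nat.factorial]

end Vale.Agent.P254u
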