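import Vale.Agent.P254u.Basic

/-!
# P254: a minimiser of the ratio among polytopes with at most `N` constraints
-/

namespace Vale.Agent.P254u

open MeasureTheory Set Filter
open scoped Topology

theorem null_level {v : R3} (hv : v ≠ 0) (c : ℝ) : volume {x : R3 | dot v x = c} = 0 := by
  set S := {x : R3 | dot v x = c} with hS
  have hcl : IsClosed S := isClosed_eq (continuous_dot v) continuous_const
  have hcv : Convex ℝ S :=
    convex_hyperplane ⟨fun x y => by simp [dot]; ring, fun r x => by simp [dot]; ring⟩ c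
  have hin : interior S = ∅ := by
    by_contra hne
    obtain ⟨x, hx⟩ := nonempty_iff_ne_empty.2 hne
    have hc : Continuous fun t : ℝ => x + t • v := by fun_prop
    have hev : ∀ᶠ t in 𝓝 (0 : ℝ), x + t • v ∈ S := by
      refine hc.continuousAt.preimage_mem_nhds ?_
      simpa using mem_of_superset (isOpen_interior.mem_nhds hx) interior_subset
    obtain ⟨e, he, hball⟩ := Metric.eventually_nhds_iff.1 hev
    have h1 := hball (y := e / 2) (by rw [Real.dist_eq, sub_zero, abs_of_pos (by positivity)]; linarith)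
    have h0 : dot v x = c := (interior_subset hx : x ∈ S)
    have hvv : dot v v ≠ 0 := by
      intro h
      refine hv (funext fun k => ?_)
      rw [dot_sum] at h
      simpa using (Finset.sum_eq_zero_iff_of_nonneg fun j _ => mul_self_nonneg (v j)).1 h k
        (Finset.mem_univ k)
    have : dot v (x + (e / 2) • v) = dot v x + e / 2 * dot v v := by simp [dot]; ring
    have h2 : dot v (x + (e / 2) • v) = c := h1
    rw [this, h0] at h2
    exact mul_ne_zero (by positivity) hvv (by linarith)
  have := hcv.addHaar_frontier volume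
  rwa [hcl.frontier_eq, hin, sdiff_empty] at this

theorem null_coord (k : Fin 3) : volume {x : R3 | x k = 0} = 0 := by
  have h := null_level (v := Pi.single k 1) (by simp) 0
  have e : {x : R3 | x k = 0} = {x | dot (Pi.single k 1) x = 0} := by
    ext x; simp [dot_sum, Pi.single_apply]
  rw [e]; exact h

theorem null_level_one (v : R3) : volume {x : R3 | dot v x = 1} = 0 := by
  rcases eq_or_ne v 0 with rfl | hv
  · simp [dot]
  · exact null_level hv 1

theorem body_diff_inner (F : Finset R3) : volume (body F \ inner F) = 0 := by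
  refine measure_mono_null (t := (⋃ k, {x : R3 | x k = 0}) ∪ ⋃ v ∈ F, {x | dot v x = 1}) ?_ ?_
  · rintro x ⟨hx, hn⟩
    by_contra h
    simp only [mem_union, mem_iUnion, mem_ofPred_eq, not_or, not_exists] at h
    exact hn ⟨fun k => lt_of_le_of_ne (hx.1 k) (Ne.symm (h.1 k)),
      fun w hw => lt_of_le_of_ne (hx.2 w hw) (h.2 w hw)⟩
  · exact measure_union_null (measure_iUnion_null null_coord)
      ((measure_biUnion_null_iff F.countable_toSet).2 fun v _ => null_level_one v)

/-- Moments of the body of a tuple of constraints. -/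
noncomputable def tupInt {N : ℕ} (g : R3 → ℝ) (W : Fin N → R3) : ℝ :=
  ∫ x, (body (Finset.univ.image W)).indicator g x

/-- Normalised tuples. -/
def cube (N : ℕ) : Set (Fin N → R3) :=
  {W | (∀ i k, W i k ∈ Icc (0 : ℝ) 1) ∧ ∀ k, ∃ i, W i k = 1}

theorem isCompact_cube (N : ℕ) : IsCompact (cube N) := by
  refine (isCompact_univ_pi fun _ : Fin N => isCompact_univ_pi fun _ : Fin 3 =>
    isCompact_Icc (a := (0 : ℝ)) (b := 1)).of_isClosed_subset ?_
      (fun W hW i _ k _ => hW.1 i k)
  have e : cube N = (⋂ i, ⋂ k, {W : Fin N → R3 | W i k ∈ Icc (0 : ℝ) 1}) ∩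
      ⋂ k, ⋃ i, {W | W i k = 1} := by
    ext W; simp [cube]
  rw [e]
  exact (isClosed_iInter fun i => isClosed_iInter fun k =>
      isClosed_Icc.preimage (continuous_apply_apply i k)).inter
    (isClosed_iInter fun k => isClosed_iUnion_of_finite fun i =>
      isClosed_eq (continuous_apply_apply i k) continuous_const)

theorem good_of_cube {N : ℕ} {W : Fin N → R3} (hW : W ∈ cube N) :
    Good (Finset.univ.image W) ∧ body (Finset.univ.image W) ⊆ Icc 0 1 := by
  refine ⟨⟨fun w hw k => ?_, fun k => ?_⟩, fun x hx => ⟨hx.1, fun k => ?_⟩⟩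
  · obtain ⟨i, -, rfl⟩ := Finset.mem_image.1 hw
    exact (hW.1 i k).1
  · obtain ⟨i, hi⟩ := hW.2 k
    exact ⟨W i, Finset.mem_image_of_mem _ (Finset.mem_univ i), by linarith⟩
  · obtain ⟨i, hi⟩ := hW.2 k
    refine le_trans ?_ (hx.2 _ (Finset.mem_image_of_mem W (Finset.mem_univ i)))
    rw [dot_sum]
    refine le_trans (by simp [hi]) (Finset.single_le_sum (f := fun j => W i j * x j)
      (fun j _ => mul_nonneg (hW.1 i j).1 (hx.1 j)) (Finset.mem_univ k))

theorem continuousOn_tupInt {N : ℕ} {g : R3 → ℝ} (hg : Continuous g) :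
    ContinuousOn (tupInt g) (cube N) := by
  intro W₀ _
  refine continuousWithinAt_of_dominated (bound := (Icc (0 : R3) 1).indicator fun x => |g x|)
    (.of_forall fun W => (hg.measurable.indicator
      (isClosed_body _).measurableSet).aestronglyMeasurable) ?_ ?_ ?_
  · filter_upwards [self_mem_nhdsWithin] with W hW
    refine .of_forall fun x => ?_
    simp only [indicator, Real.norm_eq_abs]
    split_ifs with h h' <;> first | exact le_rfl | exact absurd ((good_of_cube hW).2 h) h' | simp
  · exact (integrable_indicator_iff measurableSet_Icc).2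
      (hg.abs.continuousOn.integrableOn_compact isCompact_Icc)
  · have : ∀ᵐ x : R3, ∀ i, dot (W₀ i) x ≠ 1 :=
      ae_all_iff.2 fun i => measure_eq_zero_iff_ae_notMem.1 (null_level_one (W₀ i))
    filter_upwards [this] with x hx
    refine ContinuousAt.continuousWithinAt (ContinuousAt.congr continuousAt_const (?_ :
      (fun _ => (body (Finset.univ.image W₀)).indicator g x) =ᶠ[𝓝 W₀]
        fun W => (body (Finset.univ.image W)).indicator g x))
    have hev : ∀ᶠ W in 𝓝 W₀, ∀ i, (dot (W i) x ≤ 1 ↔ dot (W₀ i) x ≤ 1) := by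
      refine eventually_all.2 fun i => ?_
      have hc : Continuous fun W : Fin N → R3 => dot (W i) x := by unfold dot; fun_prop
      rcases lt_or_gt_of_ne (hx i) with h | h
      · filter_upwards [hc.continuousAt.eventually_lt continuousAt_const h] with W hW
        exact iff_of_true hW.le h.le
      · filter_upwards [continuousAt_const.eventually_lt hc.continuousAt h] with W hW
        exact iff_of_false (by linarith) (by linarith)
    filter_upwards [hev] with W hW
    have : x ∈ body (Finset.univ.image W₀) ↔ x ∈ body (Finset.univ.image W) := by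
      simp only [body, mem_ofPred_eq, Finset.forall_mem_image, Finset.mem_univ, forall_const]
      exact and_congr_right fun _ => forall_congr' fun i => (hW i).symm
    classical
    simp only [indicator]
    exact if_congr this rfl rfl

theorem exists_min {N : ℕ} (hN : 3 ≤ N) :
    ∃ F, Good F ∧ F.card ≤ N ∧ ∀ F', Good F' → F'.card ≤ N → G F ≤ G F' := by
  have hne : (cube N).Nonempty := by
    refine ⟨fun i k => if (k : ℕ) = (i : ℕ) then 1 else 0, fun i k => ?_, fun k => ?_⟩
    · dsimp only; split_ifs <;> simp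
    · exact ⟨⟨k, lt_of_lt_of_le k.isLt hN⟩, by simp⟩
  set gN : (Fin N → R3) → ℝ := fun W =>
    tupInt (fun _ => (1 : ℝ)) W ^ 4 / ∏ k, tupInt (fun x => x k) W with hgN
  have hval : ∀ W ∈ cube N, gN W = G (Finset.univ.image W) := by
    intro W _
    simp only [hgN, tupInt, G, vol, mom, integral_indicator (isClosed_body _).measurableSet]
    simp
  have hc : ContinuousOn gN (cube N) := by
    refine ((continuousOn_tupInt continuous_const).pow 4).div
      (continuousOn_finsetProd _ fun k _ => continuousOn_tupInt (continuous_apply k)) fun W hW => ?_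
    have := (good_of_cube hW).1.prod_mom_pos
    simp only [mom] at this
    simp only [tupInt, integral_indicator (isClosed_body _).measurableSet]
    exact this.ne'
  obtain ⟨W, hW, hmin⟩ := (isCompact_cube N).exists_isMinOn hne hc
  refine ⟨Finset.univ.image W, (good_of_cube hW).1,
    Finset.card_image_le.trans (by simp), fun F' hF' hcard => ?_⟩
  have hFne : F'.Nonempty := ⟨_, (hF'.cap 0).choose_spec.1⟩
  set M : R3 := fun k => F'.sup' hFne fun w => w k with hM
  have hMpos : ∀ k, 0 < M k := fun k => by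
    obtain ⟨w, hw, hp⟩ := hF'.cap k
    exact lt_of_lt_of_le hp (Finset.le_sup' (fun w : R3 => w k) hw)
  have hs : ∀ k, 0 < (fun k => (M k)⁻¹) k := fun k => inv_pos.2 (hMpos k)
  set F'' := scaleF (fun k => (M k)⁻¹) F' with hF''
  have hne'' : F''.Nonempty := hFne.image _
  set e := F''.equivFin with he
  obtain ⟨w₀, hw₀⟩ := hne''
  set W' : Fin N → R3 := fun i =>
    if h : (i : ℕ) < F''.card then (e.symm ⟨i, h⟩ : R3) else w₀ with hW'
  have himg : Finset.univ.image W' = F'' := by
    ext w
    simp only [Finset.mem_image, Finset.mem_univ, true_and, hW']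
    refine ⟨?_, fun hw => ⟨⟨e ⟨w, hw⟩, lt_of_lt_of_le (e ⟨w, hw⟩).isLt
      (by rw [card_scaleF hs]; exact hcard)⟩, by simp⟩⟩
    rintro ⟨i, rfl⟩
    split_ifs with h
    · exact (e.symm ⟨i, h⟩).2
    · exact hw₀
  have hW'c : W' ∈ cube N := by
    have hmem : ∀ i, W' i ∈ F'' := fun i => himg ▸ Finset.mem_image_of_mem _ (Finset.mem_univ i)
    refine ⟨fun i k => ?_, fun k => ?_⟩
    · obtain ⟨w, hw, hwe⟩ := Finset.mem_image.1 (hmem i)
      rw [← hwe]
      refine ⟨mul_nonneg (hF'.nonneg w hw k) (hs k).le, ?_⟩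
      dsimp only
      rw [← div_eq_mul_inv, div_le_one (hMpos k)]
      exact Finset.le_sup' (fun w : R3 => w k) hw
    · obtain ⟨w, hw, hwe⟩ := Finset.exists_mem_eq_sup' hFne fun w : R3 => w k
      have : (fun j => w j * (M j)⁻¹) ∈ Finset.univ.image W' :=
        himg ▸ Finset.mem_image_of_mem _ hw
      obtain ⟨i, -, hi⟩ := Finset.mem_image.1 this
      refine ⟨i, ?_⟩
      rw [hi]
      dsimp only
      rw [show M k = w k from hwe, mul_inv_cancel₀]
      exact fun h0 => (hMpos k).ne' (hwe.trans h0)
  have h1 : gN W ≤ gN W' := hmin hW'c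
  rw [hval W hW, hval W' hW'c, himg, G_scale hs] at h1
  exact h1

/-- A minimiser with centroid `(1, 1, 1)` and no redundant constraint. -/
structure Opt (N : ℕ) (F : Finset R3) : Prop where
  good : Good F
  card : F.card ≤ N
  min : ∀ F', Good F' → F'.card ≤ N → G F ≤ G F'
  cent : ∀ k, mom F k = vol F
  irred : ∀ w ∈ F, ∃ x, (∀ k, 0 < x k) ∧ dot w x = 1 ∧ ∀ v ∈ F, v ≠ w → dot v x < 1

theorem irred_of_min {F : Finset R3} (hg : Good F)
    (hsmall : ∀ F', Good F' → F'.card < F.card → G F < G F') {w : R3} (hw : w ∈ F) :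
    ∃ x, (∀ k, 0 < x k) ∧ dot w x = 1 ∧ ∀ v ∈ F, v ≠ w → dot v x < 1 := by
  suffices h : ∃ x ∈ inner (F.erase w), 1 ≤ dot w x by
    obtain ⟨x, hx, h1⟩ := h
    have hpos : 0 < dot w x := by linarith
    refine ⟨fun k => x k / dot w x, fun k => div_pos (hx.1 k) hpos, ?_, fun v hv hne => ?_⟩
    · have : dot w (fun k => x k / dot w x) = dot w x / dot w x := by simp only [dot]; ring
      rw [this, div_self hpos.ne']
    · have : dot v (fun k => x k / dot w x) = dot v x / dot w x := by simp only [dot]; ring
      rw [this, div_lt_one hpos]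
      exact lt_of_lt_of_le (hx.2 v (Finset.mem_erase.2 ⟨hne, hv⟩)) h1
  by_contra hno
  push Not at hno
  have hgood : Good (F.erase w) := by
    refine ⟨fun v hv => hg.nonneg v (Finset.mem_of_mem_erase hv), fun k => ?_⟩
    by_contra hk
    push Not at hk
    obtain ⟨v, hv, hp⟩ := hg.cap k
    have hvw : v = w := by
      by_contra hne
      exact absurd hp (not_lt.2 (hk v (Finset.mem_erase.2 ⟨hne, hv⟩)))
    subst hvw
    obtain ⟨x, hx⟩ := inner_nonempty (F.erase v)
    set t := (1 - dot v x) / v k with ht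
    have h0 : dot v x < 1 := hno x hx
    have ht0 : 0 < t := div_pos (by linarith) hp
    set y : R3 := Function.update x k (x k + t) with hy
    have hdot : ∀ u : R3, dot u y = dot u x + u k * t := by
      intro u; fin_cases k <;> simp [hy, dot] <;> ring
    have hy' : y ∈ inner (F.erase v) := by
      refine ⟨fun j => ?_, fun u hu => ?_⟩
      · rcases eq_or_ne j k with rfl | hjk
        · simp [hy]; linarith [hx.1 j]
        · simp [hy, hjk, hx.1 j]
      · have : u k = 0 := le_antisymm (hk u hu) (hg.nonneg u (Finset.mem_of_mem_erase hu) k)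
        rw [hdot, this]; simpa using hx.2 u hu
    have h2 := hno y hy'
    rw [hdot, ht, mul_div_cancel₀ _ hp.ne'] at h2
    linarith
  have hsub : body F ⊆ body (F.erase w) :=
    fun x hx => ⟨hx.1, fun v hv => hx.2 v (Finset.mem_of_mem_erase hv)⟩
  have hae : body (F.erase w) =ᵐ[volume] body F := by
    have hd : body (F.erase w) \ body F ⊆ body (F.erase w) \ inner (F.erase w) := by
      rintro x ⟨hx, hn⟩
      refine ⟨hx, fun hin => hn ⟨fun k => (hin.1 k).le, fun v hv => ?_⟩⟩
      rcases eq_or_ne v w with rfl | hne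
      · exact (hno x hin).le
      · exact (hin.2 v (Finset.mem_erase.2 ⟨hne, hv⟩)).le
    exact ae_eq_set.2 ⟨measure_mono_null hd (body_diff_inner (F.erase w)),
      by rw [sdiff_eq_empty.2 hsub, measure_empty]⟩
  have hG : G (F.erase w) = G F := by
    simp only [G, vol, mom, measureReal_congr hae, setIntegral_congr_set hae]
  have := hsmall _ hgood (Finset.card_erase_lt_of_mem hw)
  linarith

theorem exists_opt {N : ℕ} (hN : 3 ≤ N) : ∃ F, Opt N F := by
  classical
  obtain ⟨F₀, hg₀, hc₀, hm₀⟩ := exists_min hN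
  have hex : ∃ m, ∃ F, F.card = m ∧ Good F ∧ m ≤ N ∧ ∀ F', Good F' → F'.card ≤ N → G F ≤ G F' :=
    ⟨_, F₀, rfl, hg₀, hc₀, hm₀⟩
  obtain ⟨F, hFm, hg, hc, hm⟩ := Nat.find_spec hex
  set s : R3 := fun k => mom F k / vol F with hs'
  have hs : ∀ k, 0 < s k := fun k => div_pos (hg.mom_pos k) hg.vol_pos
  have hmin' : ∀ F', Good F' → F'.card ≤ N → G (scaleF s F) ≤ G F' := fun F' h h' => by
    rw [G_scale hs]; exact hm F' h h'
  have hcard' : (scaleF s F).card ≤ N := by rw [card_scaleF hs, hFm]; exact hc
  refine ⟨scaleF s F, hg.scale hs, hcard', hmin', fun k => ?_, fun w hw => ?_⟩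
  · rw [mom_scale hs, vol_scale hs]
    simp only [hs']
    field_simp [hg.vol_pos.ne', (hg.mom_pos k).ne']
  · refine irred_of_min (hg.scale hs) (fun F' h hlt => ?_) hw
    rw [card_scaleF hs] at hlt
    by_contra hle
    push Not at hle
    rw [G_scale hs] at hle
    exact Nat.find_min hex (hlt.trans_eq hFm) ⟨F', rfl, h, (hlt.le.trans (hFm ▸ hc.trans_eq rfl)),
      fun F'' h'' hc'' => hle.trans (hm F'' h'' hc'')⟩

end Vale.Agent.P254u
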