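import Vale.Agent.P254u.Tools

/-!
# P254: two strips sharing an edge give the square pyramid
-/

namespace Vale.Agent.P254u

open MeasureTheory Set

variable {N : ℕ} {F : Finset R3} {w v : R3}

theorem permF_permF (σ : Equiv.Perm (Fin 3)) (hσ : ∀ k, σ (σ k) = k) (F : Finset R3) :
    permF σ (permF σ F) = F := by
  ext x
  rw [mem_permF, mem_permF]
  have e : ∀ k, σ.symm k = σ k := fun k => by rw [Equiv.symm_apply_eq, hσ]
  simp [e, hσ]

/-- The exchange of the last two coordinates. -/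
def s12 : Equiv.Perm (Fin 3) := Equiv.swap 1 2

/-- A constraint with the last two coordinates exchanged. -/
def sw (x : R3) : R3 := fun k => x (s12 k)

@[simp] theorem sw_zero (x : R3) : sw x 0 = x 0 := by simp [sw, s12, Equiv.swap_apply_def]
@[simp] theorem sw_one (x : R3) : sw x 1 = x 2 := by simp [sw, s12]
@[simp] theorem sw_two (x : R3) : sw x 2 = x 1 := by simp [sw, s12]

theorem s12_invol : ∀ k, s12 (s12 k) = k := fun _ => Equiv.swap_apply_self _ _ _

theorem sw_sw (x : R3) : sw (sw x) = x := funext fun k => by simp [sw, s12_invol]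

theorem mem_sw {x : R3} (hx : x ∈ F) : sw x ∈ permF s12 F := Finset.mem_image_of_mem _ hx

theorem exists_sw {x : R3} (hx : x ∈ permF s12 F) : ∃ u ∈ F, x = sw u := by
  obtain ⟨u, hu, rfl⟩ := Finset.mem_image.1 hx
  exact ⟨u, hu, rfl⟩

/-- Two strips meeting along an edge: the constraint `v` attains the fibre length of the strip of
`w` at an interior parameter `m`. -/
structure Edge (N : ℕ) (F : Finset R3) (w v : R3) (m : ℝ) : Prop where
  strip : Strip N F w
  nofull : NoFull F
  free : F.card < N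
  mv : v ∈ top F
  v1 : v 1 = 0
  v0 : 0 < v 0
  hm : m ∈ JJ F w
  he : LL F w m = ell v m (uu w m)

namespace Edge

variable {m : ℝ}

theorem strip' (h : Edge N F w v m) : Strip N (permF s12 F) (sw v) :=
  ⟨h.strip.opt.perm s12, mem_sw (mem_top.1 h.mv).1, by simpa using h.v0,
    by simpa using (mem_top.1 h.mv).2, by simpa using h.v1⟩

theorem ell_v (h : Edge N F w v m) (a b : ℝ) : ell v a b = uu (sw v) a := by
  simp [ell, uu, h.v1]

theorem along (h : Edge N F w v m) {a : ℝ} (ha : a ∈ Icc (lo F w) (hi F w)) :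
    LL F w a = uu (sw v) a := by
  rw [h.strip.piece_const h.free h.mv h.hm h.he ha, h.ell_v]

theorem v_pos (h : Edge N F w v m) : 0 < v 0 / v 2 := div_pos h.v0 (mem_top.1 h.mv).2

theorem slope (h : Edge N F w v m) : -(v 0 / v 2) = 2 * (w 0 / w 1 - 1) := by
  rw [← h.strip.slope_eq h.free h.mv h.hm h.he]
  simp only [slope', h.v1]; ring

theorem sub (h : Edge N F w v m) {a : ℝ} (ha : a ∈ JJ F w) :
    a ∈ JJ (permF s12 F) (sw v) ∧ LL (permF s12 F) (sw v) a = uu w a := by
  have haI := Ioo_subset_Icc_self (h.strip.mem_JJ.1 ha)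
  have hg := h.strip.opt.good
  set g := uu (sw v) a with hgd
  have hL : LL F w a = g := h.along haI
  have hg0 : 0 < g := hL ▸ ha.2.2.2
  have hv2 := (mem_top.1 h.mv).2
  have hlow : ∀ u ∈ F, dot u (P254u.mk (a, g) (uu w a)) ≤ 1 := by
    intro u hu
    rcases eq_or_lt_of_le (hg.nonneg u hu 2) with h2 | h2
    · rcases eq_or_ne u w with rfl | hne
      · have := h.strip.p1.ne'
        simp only [dot, mk_zero, mk_one, mk_two, ← h2, uu]
        field_simp
        linarith
      · have := ha.2.2.1 u hu h2.symm hne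
        simp only [dot, mk_zero, mk_one, mk_two, ← h2]
        linarith
    · have := Lh_le (mem_top.2 ⟨hu, h2⟩) a (uu w a)
      rw [show Lh F a (uu w a) = g from hL] at this
      simp only [ell, le_div_iff₀ h2] at this
      simp only [dot, mk_zero, mk_one, mk_two]
      linarith
  have hLL : LL (permF s12 F) (sw v) a = uu w a := by
    refine le_antisymm ?_ ?_
    · refine (Lh_le (F := permF s12 F) (v := sw w)
        (mem_top.2 ⟨mem_sw h.strip.mem, by simpa using h.strip.p1⟩) a _).trans_eq ?_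
      simp [ell, uu, h.strip.p2]
    · obtain ⟨x, hx, hxe⟩ := exists_Lh (hg.perm s12) a g
      obtain ⟨u, hu, rfl⟩ := exists_sw (mem_top.1 hx).1
      have hu1 : 0 < u 1 := by simpa using (mem_top.1 hx).2
      rw [show LL (permF s12 F) (sw v) a = _ from hxe]
      have := hlow u hu
      simp only [dot, mk_zero, mk_one, mk_two] at this
      simp only [ell, sw_zero, sw_one, sw_two, le_div_iff₀ hu1]
      linarith
  refine ⟨⟨ha.1, hg0, fun x hx hx2 hne => ?_, hLL ▸ ha.2.1⟩, hLL⟩
  obtain ⟨u, hu, rfl⟩ := exists_sw hx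
  simp only [sw_two] at hx2
  simp only [sw_zero, sw_one]
  rcases eq_or_lt_of_le (hg.nonneg u hu 2) with h2 | h2
  · have hne' : u ≠ w := fun e => by rw [e] at hx2; exact h.strip.p1.ne' hx2
    have := ha.2.2.1 u hu h2.symm hne'
    rw [hx2] at this
    rw [← h2]; linarith
  · rcases eq_or_lt_of_le (hg.nonneg u hu 0) with h0 | h0
    · -- a cap of the third coordinate lies strictly above
      by_contra hge
      push Not at hge
      have hut : u ∈ top F := mem_top.2 ⟨hu, h2⟩
      have hle := hlow u hu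
      simp only [dot, mk_zero, mk_one, mk_two, ← h0, hx2] at hle
      rw [← h0] at hge
      have he' : LL F w a = ell u a (uu w a) := by
        rw [hL, ell, ← h0, hx2, eq_div_iff h2.ne']
        linarith
      have s1 := h.strip.slope_eq h.free hut ha he'
      rw [← h.slope] at s1
      simp only [slope', ← h0, hx2] at s1
      have := h.v_pos
      rw [zero_mul, sub_zero, neg_zero, zero_div] at s1
      linarith
    · refine absurd (congrArg sw (?_ : u = v)) hne
      refine supp_inj h.strip.opt h.nofull hu (mem_top.1 h.mv).1 fun k => ?_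
      fin_cases k
      · exact ⟨fun e => absurd e h0.ne', fun e => absurd e h.v0.ne'⟩
      · exact ⟨fun _ => h.v1, fun _ => hx2⟩
      · exact ⟨fun e => absurd e h2.ne', fun e => absurd e hv2.ne'⟩

theorem swap (h : Edge N F w v m) : Edge N (permF s12 F) (sw v) (sw w) m where
  strip := h.strip'
  nofull := h.nofull.perm _
  free := by rw [card_permF]; exact h.free
  mv := mem_top.2 ⟨mem_sw h.strip.mem, by simpa using h.strip.p1⟩
  v1 := by simpa using h.strip.p2
  v0 := by simpa using h.strip.p0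
  hm := (h.sub h.hm).1
  he := by
    rw [(h.sub h.hm).2]
    simp [ell, uu, h.strip.p2]

theorem JJ_eq' (h : Edge N F w v m) : JJ (permF s12 F) (sw v) = JJ F w := by
  refine Subset.antisymm (fun a ha => ?_) fun a ha => (h.sub ha).1
  have := (h.swap.sub ha).1
  rwa [permF_permF _ s12_invol, sw_sw] at this

/-- The two strips are those of the pyramid. -/
theorem values (h : Edge N F w v m) :
    w 0 = 1 / 4 ∧ w 1 = 3 / 8 ∧ v 0 = 1 / 4 ∧ v 2 = 3 / 8 := by
  have s1 := h.slope
  have s2 := h.swap.slope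
  simp only [sw_zero, sw_one, sw_two] at s2
  have hp : w 0 / w 1 = 2 / 3 := by linarith
  have hq : v 0 / v 2 = 2 / 3 := by linarith
  have r1 := h.strip.rho_zero h.free (Ioo_subset_Icc_self (h.strip.mem_JJ.1 h.hm))
  have hm' := (h.sub h.hm).1
  have r2 := h.strip'.rho_zero h.swap.free (Ioo_subset_Icc_self (h.strip'.mem_JJ.1 hm'))
  rw [rho, h.along (Ioo_subset_Icc_self (h.strip.mem_JJ.1 h.hm))] at r1
  rw [rho, (h.sub h.hm).2] at r2
  have hu : uu w m = 2 / 3 * (4 - m) := by linarith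
  have hg : uu (sw v) m = 2 / 3 * (4 - m) := by linarith
  have hv2 := (mem_top.1 h.mv).2
  have h1 := h.strip.p1
  simp only [uu, sw_zero, sw_one, div_eq_iff hv2.ne'] at hg
  simp only [uu, div_eq_iff h1.ne'] at hu
  rw [div_eq_iff h1.ne'] at hp
  rw [div_eq_iff hv2.ne'] at hq
  rw [hp] at hu
  rw [hq] at hg
  exact ⟨by linarith, by linarith, by linarith, by linarith⟩

theorem uu_eq (h : Edge N F w v m) (a : ℝ) :
    uu w a = 2 / 3 * (4 - a) ∧ uu (sw v) a = 2 / 3 * (4 - a) := by
  obtain ⟨a1, a2, a3, a4⟩ := h.values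
  constructor
  · simp only [uu, a1, a2]; ring
  · simp only [uu, sw_zero, sw_one, a3, a4]; ring

theorem closed_le (h : Edge N F w v m) {a : ℝ} (ha : a ∈ Icc (lo F w) (hi F w)) {u : R3}
    (hu : u ∈ F) : dot u (P254u.mk (a, 2 / 3 * (4 - a)) (2 / 3 * (4 - a))) ≤ 1 := by
  obtain ⟨e1, e2⟩ := h.uu_eq a
  rcases eq_or_lt_of_le (h.strip.opt.good.nonneg u hu 2) with h2 | h2
  · rcases eq_or_ne u w with rfl | hne
    · simp only [dot, mk_zero, mk_one, mk_two, ← h2, h.values.1, h.values.2.1]; linarith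
    · have := (h.strip.closure_facts ha).2.2.1 u hu h2.symm hne
      rw [e1] at this
      simp only [dot, mk_zero, mk_one, mk_two, ← h2]; linarith
  · have := Lh_le (mem_top.2 ⟨hu, h2⟩) a (uu w a)
    rw [show Lh F a (uu w a) = _ from h.along ha, e1, e2] at this
    simp only [ell, le_div_iff₀ h2] at this
    simp only [dot, mk_zero, mk_one, mk_two]
    linarith

theorem other_zero (h : Edge N F w v m) {u : R3} (hu : u ∈ F) (hw : u ≠ w) (hv : u ≠ v)
    (hpos : 0 < u 1 ∨ 0 < u 2) : u 0 = 0 := by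
  by_contra h0
  have hv2 := (mem_top.1 h.mv).2
  obtain ⟨k, hk⟩ := h.nofull u hu
  fin_cases k
  · exact h0 hk
  · have h2 : u 2 ≠ 0 := (hpos.resolve_left (by simp at hk; rw [hk]; exact lt_irrefl 0)).ne'
    refine hv (supp_inj h.strip.opt h.nofull hu (mem_top.1 h.mv).1 fun j => ?_)
    fin_cases j
    · exact ⟨fun e => absurd e h0, fun e => absurd e h.v0.ne'⟩
    · exact ⟨fun _ => h.v1, fun _ => hk⟩
    · exact ⟨fun e => absurd e h2, fun e => absurd e hv2.ne'⟩
  · have h1 : u 1 ≠ 0 := (hpos.resolve_right (by simp at hk; rw [hk]; exact lt_irrefl 0)).ne'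
    refine hw (supp_inj h.strip.opt h.nofull hu h.strip.mem fun j => ?_)
    fin_cases j
    · exact ⟨fun e => absurd e h0, fun e => absurd e h.strip.p0.ne'⟩
    · exact ⟨fun e => absurd e h1, fun e => absurd e h.strip.p1.ne'⟩
    · exact ⟨fun _ => h.strip.p2, fun _ => hk⟩

theorem no_cap_zero (h : Edge N F w v m) {z : R3} (hz : z ∈ F) (z0 : 0 < z 0) (z1 : z 1 = 0)
    (z2 : z 2 = 0) : False := by
  have hopt := h.strip.opt
  obtain ⟨a1, a2, a3, a4⟩ := h.values
  have hwz : w ≠ z := fun e => by rw [← e] at z1; exact h.strip.p1.ne' z1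
  have hvz : v ≠ z := fun e => by rw [← e] at z2; exact (mem_top.1 h.mv).2.ne' z2
  set A := 1 / z 0 with hA
  obtain ⟨x, hx, hxd, hxo⟩ := hopt.irred z hz
  have hxA : x 0 = A := by
    rw [hA, eq_div_iff z0.ne']
    simp only [dot, z1, z2] at hxd; linarith
  have hA4 : A < 4 := by
    have := hxo w h.strip.mem hwz
    simp only [dot, h.strip.p2, a1, a2] at this
    linarith [hx 1]
  set k := 2 / 3 * (4 - A) with hk
  have hmA : m < A := by
    have := h.hm.2.2.1 z hz z2 (Ne.symm hwz)
    rw [z1] at this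
    rw [hA, lt_div_iff₀ z0]; linarith
  have hmI := Ioo_subset_Icc_self (h.strip.mem_JJ.1 h.hm)
  set σ : Equiv.Perm (Fin 3) := Equiv.swap 0 1 with hσ
  have hP := hopt.perm σ
  set z' : R3 := fun j => z (σ j) with hz'
  have e0 : z' 0 = 0 := by simp [hz', hσ, z1]
  have e1 : z' 1 = z 0 := by simp [hz', hσ]
  have e2 : z' 2 = 0 := by simp [hz', hσ, Equiv.swap_apply_def, z2]
  refine rect_false hP (Finset.mem_image_of_mem _ hz) (e1 ▸ z0) e0 e2
    (k₁ := k) (k₂ := k) (by linarith) (by linarith) ?_ (by show 0 < 4 - 1 / z' 1 - k / 2 - k / 2; rw [e1, ← hA]; linarith)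
  ext ⟨b, c⟩
  have hub : ub (fun j => z (σ j)) (b, c) = A := by
    show ub z' (b, c) = A
    simp [ub, e0, e1, e2, hA]
  have hz'mem : ∀ u ∈ F, (fun j => u (σ j)) ∈ permF σ F := fun u hu => Finset.mem_image_of_mem _ hu
  have hdot : ∀ u : R3, dot (fun j => u (σ j)) (P254u.mk (b, c) A) = u 0 * A + u 1 * b + u 2 * c := by
    intro u
    simp [dot, hσ, Equiv.swap_apply_def]; ring
  simp only [mem_prod, mem_Ioo, act, mem_ofPred_eq, hub]
  constructor
  · rintro ⟨hb, hc, -, ho⟩
    have o1 := ho _ (hz'mem w h.strip.mem) (fun e => hwz (funext fun j => by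
      simpa [hz'] using congrFun e (σ.symm j)))
    have o2 := ho _ (hz'mem v (mem_top.1 h.mv).1) (fun e => hvz (funext fun j => by
      simpa [hz'] using congrFun e (σ.symm j)))
    rw [hdot, h.strip.p2, a1, a2] at o1
    rw [hdot, h.v1, a3, a4] at o2
    exact ⟨⟨hb, by linarith⟩, hc, by linarith⟩
  · rintro ⟨⟨hb, hb'⟩, hc, hc'⟩
    refine ⟨hb, hc, by positivity, fun x' hx' hne => ?_⟩
    obtain ⟨u, hu, rfl⟩ := Finset.mem_image.1 hx'
    rw [hdot]
    rcases eq_or_ne u w with rfl | huw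
    · rw [h.strip.p2, a1, a2]; linarith
    rcases eq_or_ne u v with rfl | huv
    · rw [h.v1, a3, a4]; linarith
    have huz : u ≠ z := fun e => hne (by rw [e])
    have hpos : 0 < u 1 ∨ 0 < u 2 := by
      by_contra hno
      push Not at hno
      have h1 : u 1 = 0 := le_antisymm hno.1 (hopt.good.nonneg u hu 1)
      have h2 : u 2 = 0 := le_antisymm hno.2 (hopt.good.nonneg u hu 2)
      refine huz (supp_inj hopt h.nofull hu hz fun j => ?_)
      fin_cases j
      · refine ⟨fun e => ?_, fun e => absurd e z0.ne'⟩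
        obtain ⟨y, -, hy, -⟩ := hopt.irred u hu
        simp only [Fin.zero_eta, Fin.isValue] at e
        simp [dot, e, h1, h2] at hy
      · exact ⟨fun _ => z1, fun _ => h1⟩
      · exact ⟨fun _ => z2, fun _ => h2⟩
    have hu0 := h.other_zero hu huw huv hpos
    have hle := h.closed_le hmI hu
    simp only [dot, mk_zero, mk_one, mk_two, hu0] at hle
    rw [hu0]
    have n1 := hopt.good.nonneg u hu 1
    have n2 := hopt.good.nonneg u hu 2
    rcases hpos with hp | hp
    · nlinarith [mul_lt_mul_of_pos_left (show b < 2 / 3 * (4 - m) by linarith) hp,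
        mul_le_mul_of_nonneg_left (show c ≤ 2 / 3 * (4 - m) by linarith) n2]
    · nlinarith [mul_lt_mul_of_pos_left (show c < 2 / 3 * (4 - m) by linarith) hp,
        mul_le_mul_of_nonneg_left (show b ≤ 2 / 3 * (4 - m) by linarith) n1]

theorem no_cap_zero' (h : Edge N F w v m) {u : R3} (hu : u ∈ F) (hw : u ≠ w) (hv : u ≠ v) :
    u 0 = 0 := by
  by_cases hpos : 0 < u 1 ∨ 0 < u 2
  · exact h.other_zero hu hw hv hpos
  · push Not at hpos
    by_contra h0
    exact h.no_cap_zero hu (lt_of_le_of_ne (h.strip.opt.good.nonneg u hu 0) (Ne.symm h0))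
      (le_antisymm hpos.1 (h.strip.opt.good.nonneg u hu 1))
      (le_antisymm hpos.2 (h.strip.opt.good.nonneg u hu 2))

theorem hi_eq (h : Edge N F w v m) : hi F w = 4 := by
  have hst := h.strip
  have hI : hi F w ∈ Icc (lo F w) (hi F w) := ⟨hst.lo_lt_hi.le, le_rfl⟩
  have h0 := (hst.closure_facts hI).2.1
  rw [(h.uu_eq _).1] at h0
  by_contra hne
  have hlt : hi F w < 4 := lt_of_le_of_ne (by linarith) hne
  have hm := hst.mem_JJ.1 h.hm
  have hmem : hi F w ∈ JJ F w := by
    refine ⟨h.hm.1.trans hm.2, by rw [(h.uu_eq _).1]; linarith, fun u hu hu2 hne => ?_, ?_⟩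
    · have huv : u ≠ v := fun e => by rw [e] at hu2; exact (mem_top.1 h.mv).2.ne' hu2
      have hu0 := h.no_cap_zero' hu hne huv
      have := h.hm.2.2.1 u hu hu2 hne
      rw [hu0, (h.uu_eq _).1] at this ⊢
      nlinarith [mul_le_mul_of_nonneg_left (show 2 / 3 * (4 - hi F w) ≤ 2 / 3 * (4 - m) by
        linarith [hm.2]) (hst.opt.good.nonneg u hu 1)]
    · rw [h.along hI, (h.uu_eq _).2]; linarith
  exact lt_irrefl _ (hst.mem_JJ.1 hmem).2

theorem swap_lo (h : Edge N F w v m) : lo (permF s12 F) (sw v) = lo F w := by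
  rw [lo, h.JJ_eq', lo]

theorem exists_cap (h : Edge N F w v m) (hs : 0 < lo F w) :
    ∃ z ∈ F, z 0 = 0 ∧ z 2 = 0 ∧ 0 < z 1 ∧ 1 / z 1 = 2 / 3 * (4 - lo F w) := by
  have hst := h.strip
  have hI : lo F w ∈ Icc (lo F w) (hi F w) := ⟨le_rfl, hst.lo_lt_hi.le⟩
  have hlt : lo F w < 4 := by linarith [h.hi_eq, hst.lo_lt_hi]
  by_contra hno
  push Not at hno
  have hmem : lo F w ∈ JJ F w := by
    refine ⟨hs, by rw [(h.uu_eq _).1]; linarith, fun u hu hu2 hne => ?_, ?_⟩
    · have huv : u ≠ v := fun e => by rw [e] at hu2; exact (mem_top.1 h.mv).2.ne' hu2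
      have hu0 := h.no_cap_zero' hu hne huv
      refine lt_of_le_of_ne ((hst.closure_facts hI).2.2.1 u hu hu2 hne) fun e => ?_
      rw [hu0, (h.uu_eq _).1] at e
      have h1 : 0 < u 1 := lt_of_le_of_ne (hst.opt.good.nonneg u hu 1) fun e1 => by
        rw [← e1] at e; simp at e
      exact hno u hu hu0 hu2 h1 (by rw [div_eq_iff h1.ne']; linarith)
    · rw [h.along hI, (h.uu_eq _).2]; linarith
  exact lt_irrefl _ (hst.mem_JJ.1 hmem).1

theorem lo_eq (h : Edge N F w v m) : lo F w = 0 := by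
  have hst := h.strip
  have hopt := hst.opt
  have hI : lo F w ∈ Icc (lo F w) (hi F w) := ⟨le_rfl, hst.lo_lt_hi.le⟩
  obtain ⟨a1, a2, a3, a4⟩ := h.values
  by_contra hne
  have hs : 0 < lo F w := lt_of_le_of_ne (hst.closure_facts hI).1 (Ne.symm hne)
  set s := lo F w with hsd
  set k := 2 / 3 * (4 - s) with hk
  have hs4 : s < 4 := by linarith [h.hi_eq, hst.lo_lt_hi]
  obtain ⟨z, hz, z0, z2, z1, hzk⟩ := h.exists_cap hs
  obtain ⟨y', hy', y0, y2, y1, hyk⟩ := h.swap.exists_cap (by rw [h.swap_lo]; exact hs)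
  rw [h.swap_lo] at hyk
  obtain ⟨y, hy, rfl⟩ := exists_sw hy'
  simp only [sw_zero, sw_one, sw_two] at y0 y1 y2 hyk
  rw [← hsd, ← hk] at hyk
  rw [← hsd, ← hk] at hzk
  refine rect_false hopt hz z1 z0 z2 (k₁ := s) (k₂ := k) hs (by linarith) ?_ (by rw [hzk]; linarith)
  have hwz : w ≠ z := fun e => by rw [← e] at z0; exact hst.p0.ne' z0
  have hyz : y ≠ z := fun e => by rw [← e] at z2; exact y1.ne' z2
  ext ⟨a, c⟩
  have hub : ub z (a, c) = k := by simp [ub, z0, z2]; rw [← hzk]; simp
  simp only [mem_prod, mem_Ioo, act, mem_ofPred_eq, hub]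
  have hyc : y 2 * k = 1 := by rw [← hyk]; field_simp
  constructor
  · rintro ⟨ha, hc, -, ho⟩
    have o1 := ho w hst.mem hwz
    have o2 := ho y hy hyz
    simp only [dot, mk_zero, mk_one, mk_two, hst.p2, a1, a2] at o1
    simp only [dot, mk_zero, mk_one, mk_two, y0, y2] at o2
    exact ⟨⟨ha, by linarith⟩, hc, by nlinarith⟩
  · rintro ⟨⟨ha, ha'⟩, hc, hc'⟩
    refine ⟨ha, hc, by linarith, fun u hu hne => ?_⟩
    simp only [dot, mk_zero, mk_one, mk_two]
    rcases eq_or_ne u w with rfl | huw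
    · rw [hst.p2, a1, a2]; linarith
    rcases eq_or_ne u v with rfl | huv
    · rw [h.v1, a3, a4]; linarith
    have hu0 := h.no_cap_zero' hu huw huv
    have hle := h.closed_le hI hu
    simp only [dot, mk_zero, mk_one, mk_two, hu0] at hle
    rw [← hk] at hle
    rcases eq_or_lt_of_le (hopt.good.nonneg u hu 2) with h2 | h2
    · refine absurd (supp_inj hopt h.nofull hu hz fun j => ?_) hne
      have hu1 : u 1 ≠ 0 := fun e1 => by
        obtain ⟨x, -, hx, -⟩ := hopt.irred u hu
        simp [dot, hu0, e1, ← h2] at hx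
      fin_cases j
      · exact ⟨fun _ => z0, fun _ => hu0⟩
      · exact ⟨fun e => absurd e hu1, fun e => absurd e z1.ne'⟩
      · exact ⟨fun _ => z2, fun _ => h2.symm⟩
    · rw [hu0]
      nlinarith [mul_lt_mul_of_pos_left hc' h2]

theorem only_two (h : Edge N F w v m) : F = {w, v} := by
  have hst := h.strip
  have hopt := hst.opt
  obtain ⟨a1, a2, a3, a4⟩ := h.values
  refine Finset.Subset.antisymm (fun u hu => ?_) ?_
  · by_contra hno
    simp only [Finset.mem_insert, Finset.mem_singleton, not_or] at hno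
    obtain ⟨x, hx, hxd, hxo⟩ := hopt.irred u hu
    have o1 := hxo w hst.mem (Ne.symm hno.1)
    have o2 := hxo v (mem_top.1 h.mv).1 (Ne.symm hno.2)
    simp only [dot, hst.p2, a1, a2] at o1
    simp only [dot, h.v1, a3, a4] at o2
    have hu0 := h.no_cap_zero' hu hno.1 hno.2
    have hle := h.closed_le (a := 0) ⟨h.lo_eq.le, by rw [h.hi_eq]; norm_num⟩ hu
    simp only [dot, mk_zero, mk_one, mk_two, hu0] at hle
    simp only [dot, hu0] at hxd
    have n1 := hopt.good.nonneg u hu 1
    have n2 := hopt.good.nonneg u hu 2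
    have m1 : x 1 < 8 / 3 := by linarith [hx 0]
    have m2 : x 2 < 8 / 3 := by linarith [hx 0]
    rcases eq_or_lt_of_le n1 with h1 | h1
    · have h2 : 0 < u 2 := lt_of_le_of_ne n2 fun e => by rw [← h1, ← e] at hxd; norm_num at hxd
      nlinarith [mul_lt_mul_of_pos_left m2 h2]
    · nlinarith [mul_lt_mul_of_pos_left m1 h1, mul_le_mul_of_nonneg_left m2.le n2]
  · intro u hu
    simp only [Finset.mem_insert, Finset.mem_singleton] at hu
    rcases hu with rfl | rfl
    exacts [hst.mem, (mem_top.1 h.mv).1]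

theorem vol_ge (h : Edge N F w v m) : 8 ≤ vol F := by
  obtain ⟨a1, a2, a3, a4⟩ := h.values
  rw [h.only_two, vol_two h.strip.p0 h.strip.p1 h.strip.p2 h.v0.le (by rw [a1, a3]) h.v1
    (mem_top.1 h.mv).2, a1, a2, a3, a4]
  norm_num

end Edge

end Vale.Agent.P254u
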