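import Vale.Agent.P254u.Approx
import Vale.Agent.P074.BM

/-!
# P254: second moments from first moments

The section areas of a down-closed body have a concave square root, and a comparison with a linear
profile gives `V * Q ≤ 8/5 * M ^ 2`.
-/

namespace Vale.Agent.P254u

open MeasureTheory Set
open Vale.Agent.P074.BM (sect isCompact_sect sect_spec bm)
open scoped Pointwise ENNReal

theorem volReal_smul {r : ℝ} (hr : 0 ≤ r) (X : Set (Fin 2 → ℝ)) :
    volume.real (r • X) = r ^ 2 * volume.real X := by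
  rw [measureReal_def, Measure.addHaar_smul, ENNReal.toReal_mul, ← measureReal_def,
    ENNReal.toReal_ofReal (abs_nonneg _), Module.finrank_fintype_fun_eq_card, Fintype.card_fin,
    abs_of_nonneg (pow_nonneg hr _)]

/-- Brunn–Minkowski in root form in the plane, for sets containing the origin. -/
theorem bm_plane {A B D : Set (Fin 2 → ℝ)} (hA : IsCompact A) (hB : IsCompact B) (hD : IsCompact D)
    (hA0 : 0 ∈ A) (hB0 : 0 ∈ B) {t : ℝ} (ht0 : 0 ≤ t) (ht1 : t ≤ 1)
    (hsub : ∀ a ∈ A, ∀ b ∈ B, t • a + (1 - t) • b ∈ D) :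
    t * √(volume.real A) + (1 - t) * √(volume.real B) ≤ √(volume.real D) := by
  set x := √(volume.real A) with hx
  set y := √(volume.real B) with hy
  have hx2 : x ^ 2 = volume.real A := Real.sq_sqrt measureReal_nonneg
  have hy2 : y ^ 2 = volume.real B := Real.sq_sqrt measureReal_nonneg
  have hx0 : 0 ≤ x := Real.sqrt_nonneg _
  have hy0 : 0 ≤ y := Real.sqrt_nonneg _
  refine Real.le_sqrt_of_sq_le ?_
  rcases eq_or_lt_of_le (mul_nonneg ht0 hx0) with ha | ha
  · rw [← ha, zero_add, mul_pow, hy2, ← volReal_smul (sub_nonneg.2 ht1)]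
    refine measureReal_mono ?_ hD.measure_lt_top.ne
    rintro _ ⟨b, hb, rfl⟩
    simpa using hsub 0 hA0 b hb
  rcases eq_or_lt_of_le (mul_nonneg (sub_nonneg.2 ht1) hy0) with hb | hb
  · rw [← hb, add_zero, mul_pow, hx2, ← volReal_smul ht0]
    refine measureReal_mono ?_ hD.measure_lt_top.ne
    rintro _ ⟨a, ha', rfl⟩
    simpa using hsub a ha' 0 hB0
  have hxp : 0 < x := pos_of_mul_pos_right ha ht0
  have hyp : 0 < y := pos_of_mul_pos_right hb (sub_nonneg.2 ht1)
  set m := t * x + (1 - t) * y with hm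
  have hm0 : 0 < m := by linarith
  set s := (1 - t) * y / m with hs
  have hs0 : 0 < s := div_pos hb hm0
  have hs1 : s < 1 := by rw [hs, div_lt_one hm0]; linarith
  have key := bm hs0 hs1 2 ((m / x) • A) ((m / y) • B) D (hA.smul _) (hB.smul _) hD (by
    rintro _ ⟨a, ha', rfl⟩ _ ⟨b, hb', rfl⟩
    convert hsub a ha' b hb' using 1
    dsimp only
    rw [smul_smul, smul_smul]
    congr 2
    · rw [hs]; field_simp; ring
    · rw [hs]; field_simp)
  have hval : ∀ {X : Set (Fin 2 → ℝ)} {z : ℝ}, IsCompact X → 0 < z → z ^ 2 = volume.real X →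
      volume ((m / z) • X) = ENNReal.ofReal (m ^ 2) := by
    intro X z hX hz hz2
    rw [← ENNReal.ofReal_toReal (hX.smul (m / z)).measure_lt_top.ne, ← measureReal_def,
      volReal_smul (by positivity), ← hz2]
    congr 1
    field_simp
  rw [hval hA hxp hx2, hval hB hyp hy2, ← ENNReal.rpow_add _ _
    (by simp [hm0.ne']) ENNReal.ofReal_ne_top, sub_add_cancel, ENNReal.rpow_one] at key
  exact (ENNReal.ofReal_le_iff_le_toReal hD.measure_lt_top.ne).1 key

theorem integral_sect {C : Set R3} (hC : IsCompact C) (φ : ℝ → ℝ) (hφ : Continuous φ) :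
    Integrable (fun s => φ s * volume.real (sect C s)) ∧
      ∫ x in C, φ (x 0) = ∫ s, φ s * volume.real (sect C s) := by
  set e := (MeasurableEquiv.piFinSuccAbove (fun _ : Fin 3 => ℝ) 0).symm with he
  have hmp : MeasurePreserving e volume volume :=
    (volume_preserving_piFinSuccAbove (fun _ : Fin 3 => ℝ) 0).symm
  have hi : Integrable (C.indicator fun x : R3 => φ (x 0)) volume :=
    (integrable_indicator_iff hC.measurableSet).2
      ((hφ.comp (continuous_apply 0)).continuousOn.integrableOn_compact hC)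
  have hi' : Integrable (fun p : ℝ × (Fin 2 → ℝ) => C.indicator (fun x : R3 => φ (x 0)) (e p))
      volume := (hmp.integrable_comp_emb e.measurableEmbedding).2 hi
  have inner : ∀ s : ℝ, ∫ v, C.indicator (fun x : R3 => φ (x 0)) (e (s, v)) =
      φ s * volume.real (sect C s) := by
    intro s
    have hE : (fun v => C.indicator (fun x : R3 => φ (x 0)) (e (s, v))) =
        (sect C s).indicator fun _ => φ s := by
      funext v
      classical
      have : e (s, v) = Fin.cons s v := by
        simp [he, MeasurableEquiv.piFinSuccAbove_symm_apply, Fin.insertNthEquiv,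
          Fin.insertNth_zero']
      simp only [indicator, this, Fin.cons_zero]
      rfl
    rw [hE, integral_indicator (isCompact_sect hC s).measurableSet, setIntegral_const, smul_eq_mul,
      mul_comm]
  refine ⟨by simpa only [inner] using hi'.integral_prod_left, ?_⟩
  rw [← integral_indicator hC.measurableSet, ← hmp.integral_comp e.measurableEmbedding,
    Measure.volume_eq_prod, integral_prod _ hi']
  simp only [inner]

/-- The comparison with a linear profile. -/
theorem berwald {a : ℝ → ℝ} {H : ℝ} (hH : 0 ≤ H) (ha : ∀ s, 0 ≤ a s)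
    (hz : ∀ s, s ∉ Icc 0 H → a s = 0)
    (hint : ∀ φ : ℝ → ℝ, Continuous φ → Integrable fun s => φ s * a s)
    (hconc : ∀ s ∈ Icc 0 H, ∀ r ∈ Icc 0 H, ∀ t ∈ Icc (0 : ℝ) 1,
      t * √(a s) + (1 - t) * √(a r) ≤ √(a (t * s + (1 - t) * r)))
    (hV : 0 < ∫ s, a s) (hM : 0 < ∫ s, s * a s) :
    (∫ s, a s) * ∫ s, s ^ 2 * a s ≤ 8 / 5 * (∫ s, s * a s) ^ 2 := by
  set V := ∫ s, a s
  set M := ∫ s, s * a s
  set T := 4 * M / V with hT
  have hT0 : 0 < T := by positivity
  set A2 := 3 * V / T with hA2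
  set g : ℝ → ℝ := fun s => max 0 (√A2 * (1 - s / T)) with hg
  have hgc : Continuous g := by fun_prop
  set P : Set ℝ := {s | s ∈ Icc 0 H ∧ g s ≤ √(a s)} with hP
  set r₁ := sInf P
  set r₂ := sSup P
  have hPb : BddBelow P := ⟨0, fun s hs => hs.1.1⟩
  have hPa : BddAbove P := ⟨H, fun s hs => hs.1.2⟩
  have hPconv : ∀ s ∈ P, ∀ r ∈ P, ∀ z ∈ Icc s r, z ∈ P := by
    intro s hs r hr z hzm
    refine ⟨⟨hs.1.1.trans hzm.1, hzm.2.trans hr.1.2⟩, ?_⟩
    rcases eq_or_lt_of_le (hzm.1.trans hzm.2) with hsr | hsr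
    · rw [le_antisymm (hsr ▸ hzm.2) hzm.1]; exact hs.2
    set t := (r - z) / (r - s)
    have t0 : 0 ≤ t := div_nonneg (by linarith [hzm.2]) (by linarith)
    have t1 : t ≤ 1 := by simp only [t]; rw [div_le_one (by linarith)]; linarith [hzm.1]
    have ez : z = t * s + (1 - t) * r := by
      have : t * (r - s) = r - z := div_mul_cancel₀ _ (by linarith)
      linarith
    rw [ez]
    refine le_trans ?_ ((add_le_add (mul_le_mul_of_nonneg_left hs.2 t0)
      (mul_le_mul_of_nonneg_left hr.2 (sub_nonneg.2 t1))).trans (hconc s hs.1 r hr.1 t ⟨t0, t1⟩))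
    simp only [hg]
    refine max_le (by positivity [sub_nonneg.2 t1]) ?_
    have e : √A2 * (1 - (t * s + (1 - t) * r) / T) =
        t * (√A2 * (1 - s / T)) + (1 - t) * (√A2 * (1 - r / T)) := by ring
    rw [e]
    exact add_le_add (mul_le_mul_of_nonneg_left (le_max_right _ _) t0)
      (mul_le_mul_of_nonneg_left (le_max_right _ _) (sub_nonneg.2 t1))
  have hpt : ∀ s, 0 ≤ s → (s - r₁) * (s - r₂) * (a s - g s ^ 2) ≤ 0 := by
    intro s hs
    have hgn : 0 ≤ g s := le_max_left _ _
    by_cases hsP : s ∈ P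
    · have h1 : r₁ ≤ s := csInf_le hPb hsP
      have h2 : s ≤ r₂ := le_csSup hPa hsP
      have h3 : g s ^ 2 ≤ a s := by
        rw [← Real.sq_sqrt (ha s)]; exact pow_le_pow_left₀ hgn hsP.2 2
      exact mul_nonpos_of_nonpos_of_nonneg
        (mul_nonpos_of_nonneg_of_nonpos (by linarith) (by linarith)) (by linarith)
    · have h3 : a s ≤ g s ^ 2 := by
        by_cases hsH : s ∈ Icc 0 H
        · have : √(a s) ≤ g s := le_of_not_ge fun hc => hsP ⟨hsH, hc⟩
          rw [← Real.sq_sqrt (ha s)]; exact pow_le_pow_left₀ (Real.sqrt_nonneg _) this 2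
        · rw [hz s hsH]; positivity
      refine mul_nonpos_of_nonneg_of_nonpos ?_ (by linarith)
      by_contra hneg
      push Not at hneg
      rcases P.eq_empty_or_nonempty with hPe | hPn
      · simp only [r₁, r₂, hPe, Real.sInf_empty, Real.sSup_empty, sub_zero] at hneg
        nlinarith
      · have hr : r₁ ≤ r₂ := csInf_le_csSup hPn hPb hPa
        have hs1 : r₁ < s := by nlinarith
        have hs2 : s < r₂ := by nlinarith
        obtain ⟨p, hp, hps⟩ := exists_lt_of_csInf_lt hPn hs1
        obtain ⟨q, hq, hsq⟩ := exists_lt_of_lt_csSup hPn hs2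
        exact hsP (hPconv p hp q hq s ⟨hps.le, hsq.le⟩)
  set L := max H T
  have hL : 0 ≤ L := hH.trans (le_max_left _ _)
  have hI : ∀ φ : ℝ → ℝ, Continuous φ → (∫ s in (0 : ℝ)..L, φ s * a s) = ∫ s, φ s * a s := by
    intro φ _
    rw [intervalIntegral.integral_of_le hL, ← integral_Icc_eq_integral_Ioc,
      setIntegral_eq_integral_of_forall_compl_eq_zero fun s hs => ?_]
    rw [hz s fun h => hs ⟨h.1, h.2.trans (le_max_left _ _)⟩, mul_zero]
  have hgI : ∀ (φ Φ : ℝ → ℝ), Continuous φ →
      (∀ s, HasDerivAt Φ (φ s * (1 - s / T) ^ 2) s) →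
      (∫ s in (0 : ℝ)..L, φ s * g s ^ 2) = A2 * (Φ T - Φ 0) := by
    intro φ Φ hφ hd
    rw [← intervalIntegral.integral_add_adjacent_intervals (a := 0) (b := T) (c := L)
      (Continuous.intervalIntegrable (by fun_prop) _ _)
      (Continuous.intervalIntegrable (by fun_prop) _ _)]
    have e2 : ∫ s in T..L, φ s * g s ^ 2 = 0 := by
      refine (intervalIntegral.integral_congr (g := fun _ => (0 : ℝ)) fun s hs => ?_).trans
        intervalIntegral.integral_zero
      rw [uIcc_of_le (le_max_right _ _)] at hs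
      have h0 : √A2 * (1 - s / T) ≤ 0 := mul_nonpos_of_nonneg_of_nonpos (Real.sqrt_nonneg _) (by
        rw [sub_nonpos, le_div_iff₀ hT0]; linarith [hs.1])
      simp [hg, max_eq_left h0]
    have e1 : ∫ s in (0 : ℝ)..T, φ s * g s ^ 2 =
        ∫ s in (0 : ℝ)..T, A2 * (φ s * (1 - s / T) ^ 2) := by
      refine intervalIntegral.integral_congr fun s hs => ?_
      rw [uIcc_of_le hT0.le] at hs
      have h0 : 0 ≤ √A2 * (1 - s / T) := mul_nonneg (Real.sqrt_nonneg _) (by
        rw [sub_nonneg, div_le_one hT0]; exact hs.2)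
      simp only [hg, max_eq_right h0, mul_pow]
      rw [Real.sq_sqrt (by positivity)]; ring
    rw [e1, e2, add_zero, intervalIntegral.integral_const_mul,
      intervalIntegral.integral_eq_sub_of_hasDerivAt (fun s _ => hd s)
        (Continuous.intervalIntegrable (by fun_prop) _ _)]
  have g0 : (∫ s in (0 : ℝ)..L, g s ^ 2) = A2 * (T / 3) := by
    have := hgI (fun _ => 1) (fun s => s - s ^ 2 / T + s ^ 3 / (3 * T ^ 2)) continuous_const
      fun s => by
        refine (((hasDerivAt_id s).sub ((hasDerivAt_pow 2 s).div_const T)).add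
          ((hasDerivAt_pow 3 s).div_const (3 * T ^ 2))).congr_deriv ?_
        push_cast
        field_simp; ring
    simp only [one_mul] at this
    rw [this]; field_simp; ring
  have g1 : (∫ s in (0 : ℝ)..L, s * g s ^ 2) = A2 * (T ^ 2 / 12) := by
    rw [hgI (fun s => s) (fun s => s ^ 2 / 2 - 2 * (s ^ 3 / (3 * T)) + s ^ 4 / (4 * T ^ 2))
      continuous_id fun s => by
        refine ((((hasDerivAt_pow 2 s).div_const 2).sub
          (((hasDerivAt_pow 3 s).div_const (3 * T)).const_mul 2)).add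
          ((hasDerivAt_pow 4 s).div_const (4 * T ^ 2))).congr_deriv ?_
        push_cast
        field_simp; ring]
    field_simp; ring
  have g2 : (∫ s in (0 : ℝ)..L, s ^ 2 * g s ^ 2) = A2 * (T ^ 3 / 30) := by
    rw [hgI (fun s => s ^ 2) (fun s => s ^ 3 / 3 - s ^ 4 / (2 * T) + s ^ 5 / (5 * T ^ 2))
      (continuous_pow 2) fun s => by
        refine ((((hasDerivAt_pow 3 s).div_const 3).sub
          ((hasDerivAt_pow 4 s).div_const (2 * T))).add
          ((hasDerivAt_pow 5 s).div_const (5 * T ^ 2))).congr_deriv ?_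
        push_cast
        field_simp; ring]
    field_simp; ring
  have hpa : ∀ φ : ℝ → ℝ, Continuous φ → IntervalIntegrable (fun s => φ s * a s) volume 0 L :=
    fun φ hφ => (hint φ hφ).intervalIntegrable
  have hpg : ∀ φ : ℝ → ℝ, Continuous φ → IntervalIntegrable (fun s => φ s * g s ^ 2) volume 0 L :=
    fun φ hφ => Continuous.intervalIntegrable (by fun_prop) _ _
  have hle : (∫ s in (0 : ℝ)..L, (s - r₁) * (s - r₂) * a s) ≤
      ∫ s in (0 : ℝ)..L, (s - r₁) * (s - r₂) * g s ^ 2 := by
    refine intervalIntegral.integral_mono_on hL (hpa _ (by fun_prop)) (hpg _ (by fun_prop))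
      fun s hs => ?_
    linarith [hpt s hs.1]
  have expand : ∀ b : ℝ → ℝ,
      (∀ φ : ℝ → ℝ, Continuous φ → IntervalIntegrable (fun s => φ s * b s) volume 0 L) →
      (∫ s in (0 : ℝ)..L, (s - r₁) * (s - r₂) * b s) = (∫ s in (0 : ℝ)..L, s ^ 2 * b s) -
        (r₁ + r₂) * (∫ s in (0 : ℝ)..L, s * b s) + r₁ * r₂ * ∫ s in (0 : ℝ)..L, b s := by
    intro b hb
    have i0 : IntervalIntegrable b volume 0 L := by simpa using hb (fun _ => 1) continuous_const
    have i1 : IntervalIntegrable (fun s => s * b s) volume 0 L := hb (fun s => s) continuous_id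
    have i2 : IntervalIntegrable (fun s => s ^ 2 * b s) volume 0 L :=
      hb (fun s => s ^ 2) (continuous_pow 2)
    rw [← intervalIntegral.integral_const_mul, ← intervalIntegral.integral_const_mul,
      ← intervalIntegral.integral_sub i2 (i1.const_mul _),
      ← intervalIntegral.integral_add (i2.sub (i1.const_mul _)) (i0.const_mul _)]
    exact intervalIntegral.integral_congr fun s _ => by ring
  rw [expand a hpa, expand (fun s => g s ^ 2) hpg, g0, g1, g2, hI _ (continuous_pow 2),
    hI (fun s => s) continuous_id] at hle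
  have hI0 : (∫ s in (0 : ℝ)..L, a s) = V := by simpa using hI (fun _ => 1) continuous_const
  rw [hI0] at hle
  have eA : A2 * (T / 3) = V := by simp only [hA2]; field_simp
  have eB : A2 * (T ^ 2 / 12) = M := by simp only [hA2, hT]; field_simp; ring
  have eC : A2 * (T ^ 3 / 30) = 8 / 5 * M ^ 2 / V := by simp only [hA2, hT]; field_simp; ring
  rw [eA, eB, eC] at hle
  have : (∫ s, s ^ 2 * a s) ≤ 8 / 5 * M ^ 2 / V := by linarith
  rw [le_div_iff₀ hV] at this
  linarith

theorem DownBody.second_zero {C : Set R3} (h : DownBody C) (hV : 0 < volume.real C)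
    (hM : 0 < ∫ x in C, x 0) :
    volume.real C * ∫ x in C, x 0 ^ 2 ≤ 8 / 5 * (∫ x in C, x 0) ^ 2 := by
  obtain ⟨H, hH⟩ : ∃ H, IsGreatest ((fun x : R3 => x 0) '' C) H :=
    (h.cpt.image (continuous_apply 0)).exists_isGreatest ⟨_, 0, h.zero, rfl⟩
  obtain ⟨xm, hxm, hxe⟩ := hH.1
  have hH0 : 0 ≤ H := hxe ▸ h.pos xm hxm 0
  have hzero : ∀ s ∈ Icc 0 H, (0 : Fin 2 → ℝ) ∈ sect C s := by
    intro s hs
    refine h.down xm hxm _ (fun k => ?_) (fun k => ?_)
    · refine Fin.cases ?_ (fun j => ?_) k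
      · simpa using hs.1
      · simp
    · refine Fin.cases ?_ (fun j => ?_) k
      · simpa using hs.2.trans_eq hxe.symm
      · simpa using h.pos xm hxm j.succ
  have hz : ∀ s, s ∉ Icc 0 H → volume.real (sect C s) = 0 := by
    intro s hs
    have : sect C s = ∅ := by
      refine eq_empty_of_forall_notMem fun v hv => hs ⟨?_, hH.2 ⟨_, hv, by simp⟩⟩
      simpa using h.pos _ hv 0
    simp [this]
  obtain ⟨-, e0⟩ := integral_sect h.cpt (fun _ => 1) continuous_const
  obtain ⟨-, e1⟩ := integral_sect h.cpt (fun s => s) continuous_id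
  obtain ⟨-, e2⟩ := integral_sect h.cpt (fun s => s ^ 2) (continuous_pow 2)
  simp only [setIntegral_const, smul_eq_mul, mul_one, one_mul] at e0
  rw [e0, e1, e2]
  rw [e0] at hV
  rw [e1] at hM
  refine berwald hH0 (fun s => measureReal_nonneg) hz
    (fun φ hφ => (integral_sect h.cpt φ hφ).1) (fun s hs r hr t ht => ?_) hV hM
  refine bm_plane (isCompact_sect h.cpt s) (isCompact_sect h.cpt r) (isCompact_sect h.cpt _)
    (hzero s hs) (hzero r hr) ht.1 ht.2 fun v hv u hu => ?_
  have := h.conv hv hu ht.1 (sub_nonneg.2 ht.2) (by ring)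
  show Fin.cons (t * s + (1 - t) * r) (t • v + (1 - t) • u) ∈ C
  convert this using 1
  funext k
  refine Fin.cases ?_ (fun j => ?_) k <;> simp

end Vale.Agent.P254u
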