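import Vale.Agent.P254u.Junction

/-!
# P254: volumes of the extremal bodies and integrals over their facets
-/

namespace Vale.Agent.P254u

open MeasureTheory Set

/-- The volume cut out by two constraints sharing only the first coordinate. -/
theorem vol_two {w v : R3} (hw0 : 0 < w 0) (hw1 : 0 < w 1) (hw2 : w 2 = 0) (hv0 : 0 ≤ v 0)
    (hv0' : v 0 ≤ w 0) (hv1 : v 1 = 0) (hv2 : 0 < v 2) :
    vol {w, v} = (1 / 2 - v 0 / (6 * w 0)) / (w 0 * w 1 * v 2) := by
  classical
  set F : Finset R3 := {w, v} with hF
  have hg : Good F := by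
    refine ⟨fun x hx k => ?_, fun k => ?_⟩
    · simp only [hF, Finset.mem_insert, Finset.mem_singleton] at hx
      rcases hx with rfl | rfl <;> fin_cases k <;> simp [hw0.le, hw1.le, hw2, hv0, hv1, hv2.le]
    · fin_cases k
      · exact ⟨w, Finset.mem_insert_self _ _, hw0⟩
      · exact ⟨w, Finset.mem_insert_self _ _, hw1⟩
      · exact ⟨v, Finset.mem_insert_of_mem (Finset.mem_singleton_self _), hv2⟩
  set A := 1 / w 0 with hA
  have hA0 : 0 < A := by positivity
  set g : ℝ → ℝ := fun a => (1 - v 0 * a) / v 2 with hgd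
  set u : ℝ → ℝ := fun a => (1 - w 0 * a) / w 1 with hud
  have hpos : ∀ a ∈ Icc 0 A, 0 ≤ u a ∧ 0 ≤ g a := by
    intro a ha
    have h1 : w 0 * a ≤ 1 := by
      have := ha.2; rw [hA, le_div_iff₀ hw0] at this; linarith
    have h2 : v 0 * a ≤ 1 := (mul_le_mul_of_nonneg_right hv0' ha.1).trans h1
    exact ⟨div_nonneg (by linarith) hw1.le, div_nonneg (by linarith) hv2.le⟩
  have hmem : ∀ a c b : ℝ,
      mk (a, c) b ∈ body F ↔ (a ∈ Icc 0 A ∧ c ∈ Icc 0 (g a)) ∧ b ∈ Icc 0 (u a) := by
    intro a c b
    simp only [body, mem_ofPred_eq, hF, Finset.forall_mem_insert, Finset.mem_singleton, forall_eq,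
      Fin.forall_fin_succ, IsEmpty.forall_iff, dot, mk_zero, mk_one, mk_two, mem_Icc, hgd, hud,
      le_div_iff₀ hw1, le_div_iff₀ hv2, hw2, hv1, hA, le_div_iff₀ hw0]
    simp only [Fin.succ_zero_eq_one, Fin.succ_one_eq_two, mk_one, mk_two]
    constructor
    · rintro ⟨⟨ha, hb, hc, -⟩, h1, h2⟩
      exact ⟨⟨⟨ha, by nlinarith⟩, hc, by linarith⟩, hb, by linarith⟩
    · rintro ⟨⟨⟨ha, -⟩, hc, hc'⟩, hb, hb'⟩
      exact ⟨⟨ha, hb, hc, trivial⟩, by linarith, by linarith⟩
  have hint : Integrable ((body F).indicator fun _ => (1 : ℝ)) volume :=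
    (integrable_indicator_iff (isClosed_body F).measurableSet).2
      (integrableOn_const hg.isCompact.measure_lt_top.ne)
  obtain ⟨i1, i2⟩ := integral_mk hint
  have inner : ∀ a c : ℝ, ∫ b, (body F).indicator (fun _ => (1 : ℝ)) (mk (a, c) b) =
      (Icc 0 A).indicator (fun a => (Icc 0 (g a)).indicator (fun _ => u a) c) a := by
    intro a c
    by_cases h : a ∈ Icc 0 A ∧ c ∈ Icc 0 (g a)
    · rw [indicator_of_mem h.1, indicator_of_mem h.2]
      have e : (fun b => (body F).indicator (fun _ => (1 : ℝ)) (mk (a, c) b)) =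
          (Icc 0 (u a)).indicator fun _ => (1 : ℝ) := by
        funext b
        simp only [indicator, hmem, h, and_self, true_and]
      rw [e, integral_indicator measurableSet_Icc, setIntegral_const, measureReal_def, Real.volume_Icc,
        ENNReal.toReal_ofReal (by linarith [(hpos a h.1).1])]
      simp
    · have e : (fun b => (body F).indicator (fun _ => (1 : ℝ)) (mk (a, c) b)) = fun _ => 0 :=
        funext fun b => indicator_of_notMem (fun hm => h ((hmem a c b).1 hm).1) _
      rw [e, integral_zero]
      by_cases ha : a ∈ Icc 0 A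
      · rw [indicator_of_mem ha, indicator_of_notMem fun hc => h ⟨ha, hc⟩]
      · rw [indicator_of_notMem ha]
  have hV : vol F = ∫ a in (0 : ℝ)..A, g a * u a := by
    have e1 : vol F = ∫ x, (body F).indicator (fun _ => (1 : ℝ)) x := by
      rw [integral_indicator (isClosed_body F).measurableSet, setIntegral_const]; simp [vol]
    rw [e1, i2, Measure.volume_eq_prod, integral_prod _ (by rwa [← Measure.volume_eq_prod]),
      intervalIntegral.integral_of_le hA0.le, ← integral_Icc_eq_integral_Ioc,
      ← integral_indicator measurableSet_Icc]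
    refine integral_congr_ae (.of_forall fun a => ?_)
    simp only [inner]
    by_cases ha : a ∈ Icc 0 A
    · simp only [indicator_of_mem ha]
      rw [integral_indicator measurableSet_Icc, setIntegral_const, measureReal_def, Real.volume_Icc,
        ENNReal.toReal_ofReal (by linarith [(hpos a ha).2])]
      simp
    · simp [indicator_of_notMem ha]
  rw [hV, intervalIntegral.integral_eq_sub_of_hasDerivAt
    (f := fun a => (a - (w 0 + v 0) * a ^ 2 / 2 + w 0 * v 0 * a ^ 3 / 3) / (w 1 * v 2))
    (fun a _ => ?_) (Continuous.intervalIntegrable (by fun_prop) _ _)]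
  · simp only [hA]
    field_simp
    ring
  · have hd := (((hasDerivAt_id a).sub (((hasDerivAt_pow 2 a).const_mul (w 0 + v 0)).div_const 2)).add
      (((hasDerivAt_pow 3 a).const_mul (w 0 * v 0)).div_const 3)).div_const (w 1 * v 2)
    refine (hd.congr_of_eventuallyEq (.of_forall fun x => ?_)).congr_deriv ?_
    · simp only [Pi.add_apply, Pi.sub_apply, id_eq]
    · simp only [hgd, hud]
      field_simp
      push_cast
      ring

theorem integral_rect {k₁ k₂ : ℝ} (h1 : 0 ≤ k₁) (h2 : 0 ≤ k₂) (α : ℝ) :
    ∫ y in Ioo 0 k₁ ×ˢ Ioo 0 k₂, (α - y.1 - y.2) = k₁ * k₂ * (α - k₁ / 2 - k₂ / 2) := by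
  rw [Measure.volume_eq_prod, setIntegral_prod]
  · have inner : ∀ a : ℝ, ∫ c in Ioo 0 k₂, (α - a - c) = (α - a) * k₂ - k₂ ^ 2 / 2 := by
      intro a
      rw [← integral_Ioc_eq_integral_Ioo, ← intervalIntegral.integral_of_le h2,
        intervalIntegral.integral_sub intervalIntegrable_const
          (Continuous.intervalIntegrable (u := fun x : ℝ => x) continuous_id' _ _),
        intervalIntegral.integral_const, integral_id]
      simp only [smul_eq_mul]; ring
    simp only [inner]
    rw [← integral_Ioc_eq_integral_Ioo, ← intervalIntegral.integral_of_le h1,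
      intervalIntegral.integral_eq_sub_of_hasDerivAt
        (f := fun a => (α * a - a ^ 2 / 2) * k₂ - a * (k₂ ^ 2 / 2)) (fun a _ => ?_)
        (Continuous.intervalIntegrable (by fun_prop) _ _)]
    · ring
    · have hd := ((((hasDerivAt_id a).const_mul α).sub ((hasDerivAt_pow 2 a).div_const 2)).mul_const
        k₂).sub ((hasDerivAt_id a).mul_const (k₂ ^ 2 / 2))
      convert hd using 1
      · funext x; simp only [Pi.sub_apply, id_eq]
      · push_cast; ring
  · rw [← Measure.volume_eq_prod]
    exact ((by fun_prop : Continuous fun y : ℝ × ℝ => α - y.1 - y.2).continuousOn.integrableOn_compact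
      (isCompact_Icc.prod isCompact_Icc)).mono_set
        (Set.prod_mono Ioo_subset_Icc_self Ioo_subset_Icc_self)

/-- A facet whose projection is a rectangle and whose defect has the wrong mean. -/
theorem rect_false {N : ℕ} {F : Finset R3} (h : Opt N F) {z : R3} (hz : z ∈ F) (h1 : 0 < z 1)
    (hz0 : z 0 = 0) (hz2 : z 2 = 0) {k₁ k₂ : ℝ} (hk₁ : 0 < k₁) (hk₂ : 0 < k₂)
    (hact : act F z = Ioo 0 k₁ ×ˢ Ioo 0 k₂)
    (hne : 0 < 4 - 1 / z 1 - k₁ / 2 - k₂ / 2) : False := by
  have h0 := facet_eq h hz h1 (d := ![1, 0, 0]) (Or.inl rfl) (Or.inl rfl)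
  have e : ∀ y : ℝ × ℝ, lin ![1, 0, 0] y * (4 - y.1 - ub z y - y.2) =
      (4 - 1 / z 1) - y.1 - y.2 := fun y => by simp [lin, ub, hz0, hz2]; ring
  simp only [e] at h0
  rw [hact, integral_rect hk₁.le hk₂.le] at h0
  have := mul_pos (mul_pos hk₁ hk₂) hne
  linarith

/-- A coordinate bounded by a cap alone is bounded by `2`. -/
theorem cap_mid {F : Finset R3} (hg : Good F) (hcent : ∀ k, mom F k = vol F) {z : R3} (hz : z ∈ F)
    {k : Fin 3} (hzk : 0 < z k) (hzo : ∀ j, j ≠ k → z j = 0)
    (hoth : ∀ v ∈ F, v ≠ z → v k = 0) : 1 / z k = 2 := by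
  set M := 1 / z k with hM
  set f : Fin 3 → ℝ → ℝ := fun i t => if i = k then M - t else t with hf
  set R : R3 → R3 := fun x i => f i (x i) with hR
  have hpres : MeasurePreserving R volume volume := by
    refine volume_preserving_pi fun i => ?_
    by_cases hi : i = k
    · simp only [hf, hi, if_true]
      exact Measure.measurePreserving_sub_left volume M
    · simp only [hf, hi, if_false]
      exact MeasurePreserving.id volume
  have hinv : ∀ x, R (R x) = x := fun x => funext fun i => by simp only [hR, hf]; split_ifs <;> ring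
  have hemb : MeasurableEmbedding R :=
    Continuous.measurableEmbedding (continuous_pi fun i => by
      simp only [hR, hf]; split_ifs <;> fun_prop) fun x y h => by rw [← hinv x, h, hinv y]
  have hsub : ∀ x ∈ body F, R x ∈ body F := by
    intro x hx
    have hdot : dot z x = z k * x k := by
      rw [dot_sum, Finset.sum_eq_single k] <;> intros <;> simp_all
    have hk : x k ≤ M := by
      have := hx.2 z hz
      rw [hdot] at this
      rw [hM, le_div_iff₀ hzk]; linarith
    refine ⟨fun i => ?_, fun v hv => ?_⟩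
    · simp only [hR, hf]
      split_ifs with hi
      · rw [hi]; linarith
      · exact hx.1 i
    · rcases eq_or_ne v z with rfl | hne
      · rw [dot_sum, Finset.sum_eq_single k]
        · simp only [hR, hf, if_true, hM]
          rw [mul_sub, mul_div_cancel₀ _ hzk.ne']
          nlinarith [hx.1 k]
        · intro j _ hj; simp [hzo j hj]
        · simp
      · refine le_trans (le_of_eq ?_) (hx.2 v hv)
        rw [dot_sum, dot_sum]
        refine Finset.sum_congr rfl fun i _ => ?_
        simp only [hR, hf]
        split_ifs with hi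
        · simp [hi, hoth v hv hne]
        · rfl
  have hpre : R ⁻¹' body F = body F :=
    Subset.antisymm (fun x hx => hinv x ▸ hsub _ hx) fun x hx => hsub x hx
  have h1 := hpres.setIntegral_preimage_emb hemb (fun x => x k) (body F)
  rw [hpre] at h1
  simp only [hR, hf, if_true] at h1
  rw [integral_sub (hg.integrableOn continuous_const) (hg.integrableOn (continuous_apply k)),
    setIntegral_const] at h1
  have hk' : (∫ x in body F, x k) = vol F := hcent k
  rw [hk', smul_eq_mul, ← vol] at h1
  have hV := hg.vol_pos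
  nlinarith

end Vale.Agent.P254u
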