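import Vale.Agent.P254u.Opt

/-!
# P254: first variation at a minimiser, moving one facet along the second coordinate
-/

namespace Vale.Agent.P254u

open MeasureTheory Set Filter
open scoped Topology

/-- The point with first and third coordinate `y` and second coordinate `b`. -/
def mk (y : ℝ × ℝ) (b : ℝ) : R3 := ![y.1, b, y.2]

@[simp] theorem mk_zero (y : ℝ × ℝ) (b : ℝ) : mk y b 0 = y.1 := rfl
@[simp] theorem mk_one (y : ℝ × ℝ) (b : ℝ) : mk y b 1 = b := rfl
@[simp] theorem mk_two (y : ℝ × ℝ) (b : ℝ) : mk y b 2 = y.2 := rfl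

theorem continuous_mk : Continuous fun p : (ℝ × ℝ) × ℝ => mk p.1 p.2 :=
  continuous_pi fun i => by fin_cases i <;> simp <;> fun_prop

/-- The splitting as a measurable equivalence. -/
noncomputable def mkEquiv : ((ℝ × ℝ) × ℝ) ≃ᵐ R3 :=
  (MeasurableEquiv.prodComm.trans
    (MeasurableEquiv.prodCongr (MeasurableEquiv.refl ℝ) MeasurableEquiv.finTwoArrow.symm)).trans
      (MeasurableEquiv.piFinSuccAbove (fun _ : Fin 3 => ℝ) 1).symm

theorem mkEquiv_apply (p : (ℝ × ℝ) × ℝ) : mkEquiv p = mk p.1 p.2 := by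
  funext i
  fin_cases i <;> simp [mkEquiv, mk, MeasurableEquiv.piFinSuccAbove, MeasurableEquiv.prodCongr,
    MeasurableEquiv.finTwoArrow, MeasurableEquiv.piFinTwo, Fin.insertNthEquiv] <;> rfl

theorem mk_pres : MeasurePreserving (fun p : (ℝ × ℝ) × ℝ => mk p.1 p.2) volume volume := by
  have h1 : MeasurePreserving (Prod.swap : (ℝ × ℝ) × ℝ → ℝ × (ℝ × ℝ)) volume volume :=
    Measure.measurePreserving_swap
  have h2 := (MeasurePreserving.id (volume : Measure ℝ)).prod
    (volume_preserving_finTwoArrow ℝ).symm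
  have h3 := (volume_preserving_piFinSuccAbove (fun _ : Fin 3 => ℝ) 1).symm
  have h : MeasurePreserving mkEquiv volume volume := (h3.comp h2).comp h1
  convert h using 1
  exact funext fun p => (mkEquiv_apply p).symm

theorem mk_emb : MeasurableEmbedding (fun p : (ℝ × ℝ) × ℝ => mk p.1 p.2) := by
  convert mkEquiv.measurableEmbedding using 1
  exact funext fun p => (mkEquiv_apply p).symm

theorem integral_mk {f : R3 → ℝ} (hf : Integrable f) :
    Integrable (fun y : ℝ × ℝ => ∫ b, f (mk y b)) ∧ ∫ x, f x = ∫ y : ℝ × ℝ, ∫ b, f (mk y b) := by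
  have hi : Integrable (fun p : (ℝ × ℝ) × ℝ => f (mk p.1 p.2)) volume :=
    (mk_pres.integrable_comp_emb mk_emb).2 hf
  refine ⟨hi.integral_prod_left, ?_⟩
  rw [← mk_pres.integral_comp mk_emb f, Measure.volume_eq_prod]
  exact integral_prod _ hi

theorem null_line {α β γ : ℝ} (h : α ≠ 0 ∨ β ≠ 0 ∨ γ ≠ 0) :
    volume {y : ℝ × ℝ | α * y.1 + β * y.2 = γ} = 0 := by
  have hm : MeasurableSet {y : ℝ × ℝ | α * y.1 + β * y.2 = γ} :=
    (isClosed_eq (by fun_prop) continuous_const).measurableSet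
  rw [Measure.volume_eq_prod, Measure.measure_prod_null hm]
  have hb : ∀ᵐ a : ℝ, α = 0 ∨ a ≠ γ / α := by
    filter_upwards [measure_eq_zero_iff_ae_notMem.1 (Real.volume_singleton (a := γ / α))] with a ha
    exact Or.inr (by simpa using ha)
  filter_upwards [hb] with a ha
  rcases eq_or_ne β 0 with hβ | hβ
  · refine measure_mono_null (t := ∅) (fun c hc => ?_) measure_empty
    have hc : α * a + β * c = γ := hc
    rw [hβ] at hc
    rcases eq_or_ne α 0 with hα | hα
    · rcases h with h | h | h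
      · exact h hα
      · exact h hβ
      · rw [hα] at hc; exact h (by linarith)
    · exact (ha.resolve_left hα) (by rw [eq_div_iff hα]; linarith)
  · refine measure_mono_null (t := {(γ - α * a) / β}) (fun c hc => ?_) Real.volume_singleton
    have hc : α * a + β * c = γ := hc
    rw [mem_singleton_iff, eq_div_iff hβ]; linarith

/-- The height of the facet `dot w = 1` over the other two coordinates. -/
noncomputable def ub (w : R3) (y : ℝ × ℝ) : ℝ := (1 - w 0 * y.1 - w 2 * y.2) / w 1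

theorem continuous_ub (w : R3) : Continuous (ub w) := by unfold ub; fun_prop

theorem dot_ub {w : R3} (hw : w 1 ≠ 0) (y : ℝ × ℝ) : dot w (mk y (ub w y)) = 1 := by
  simp [dot, ub]; field_simp; ring

theorem le_ub {w : R3} (hw : 0 < w 1) (y : ℝ × ℝ) (b : ℝ) :
    dot w (mk y b) ≤ 1 ↔ b ≤ ub w y := by
  simp only [dot, mk_zero, mk_one, mk_two, ub, le_div_iff₀ hw]
  constructor <;> intro h <;> linarith

/-- The projection of the facet. -/
def act (F : Finset R3) (w : R3) : Set (ℝ × ℝ) :=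
  {y | 0 < y.1 ∧ 0 < y.2 ∧ 0 < ub w y ∧ ∀ v ∈ F, v ≠ w → dot v (mk y (ub w y)) < 1}

theorem isOpen_act (F : Finset R3) (w : R3) : IsOpen (act F w) := by
  have hz : Continuous fun y : ℝ × ℝ => mk y (ub w y) :=
    continuous_mk.comp (continuous_id.prodMk (continuous_ub w))
  have e : act F w = {y : ℝ × ℝ | 0 < y.1} ∩ ({y | 0 < y.2} ∩ ({y | 0 < ub w y} ∩
      ⋂ v ∈ F, {y | v ≠ w → dot v (mk y (ub w y)) < 1})) := by
    ext y; simp [act]
  rw [e]
  refine (isOpen_lt continuous_const continuous_fst).inter ((isOpen_lt continuous_const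
    continuous_snd).inter ((isOpen_lt continuous_const (continuous_ub w)).inter
      (isOpen_biInter_finset fun v _ => ?_)))
  rcases eq_or_ne v w with hvw | hvw
  · simp [hvw]
  · simpa [hvw] using isOpen_lt ((continuous_dot v).comp hz) continuous_const

/-- The set swept when the facet is moved by `ε * d`. -/
def moved (F : Finset R3) (w : R3) (d : ℝ × ℝ → ℝ) (ε : ℝ) : Set R3 :=
  {x | x ∈ body (F.erase w) ∧ x 1 ≤ ub w (x 0, x 2) + ε * d (x 0, x 2)}

theorem moved_zero {F : Finset R3} {w : R3} (hw : w ∈ F) (h1 : 0 < w 1) (d : ℝ × ℝ → ℝ) :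
    moved F w d 0 = body F := by
  ext x
  have hx : mk (x 0, x 2) (x 1) = x := by funext i; fin_cases i <;> rfl
  simp only [moved, zero_mul, add_zero, mem_ofPred_eq, ← le_ub h1, hx, body, Finset.mem_erase]
  constructor
  · rintro ⟨⟨h0, ho⟩, hwx⟩
    refine ⟨h0, fun v hv => ?_⟩
    rcases eq_or_ne v w with rfl | hne
    · exact hwx
    · exact ho v ⟨hne, hv⟩
  · exact fun h => ⟨⟨h.1, fun v hv => h.2 v hv.2⟩, h.2 w hw⟩

variable {F : Finset R3} {w : R3}

/-- Feasibility for the other constraints, inside a box. -/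
def room (F : Finset R3) (w : R3) (R : ℝ) : Set R3 := body (F.erase w) ∩ Icc 0 (fun _ => R)

theorem isCompact_room (F : Finset R3) (w : R3) (R : ℝ) : IsCompact (room F w R) :=
  isCompact_Icc.inter_left (isClosed_body _)

/-- A fibre of a function cut off outside the room. -/
noncomputable def fib (F : Finset R3) (w : R3) (R : ℝ) (g : R3 → ℝ) (y : ℝ × ℝ) (b : ℝ) : ℝ :=
  (room F w R).indicator g (mk y b)

theorem measurable_fib {R : ℝ} {g : R3 → ℝ} (hg : Continuous g) :
    Measurable fun p : (ℝ × ℝ) × ℝ => fib F w R g p.1 p.2 :=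
  (hg.measurable.indicator (isCompact_room F w R).measurableSet).comp continuous_mk.measurable

theorem exists_fib_bound (F : Finset R3) (w : R3) (R : ℝ) {g : R3 → ℝ} (hg : Continuous g) :
    ∃ C, 0 ≤ C ∧ ∀ y b, |fib F w R g y b| ≤ C := by
  obtain ⟨C, hC⟩ := (isCompact_room F w R).exists_bound_of_continuousOn hg.continuousOn
  refine ⟨max C 0, le_max_right _ _, fun y b => ?_⟩
  simp only [fib, indicator]
  split_ifs with hx
  · exact (hC _ hx).trans (le_max_left _ _)
  · simp

theorem fib_eq_zero {R : ℝ} {g : R3 → ℝ} {y : ℝ × ℝ} {b : ℝ}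
    (h : ¬(y ∈ Icc ((0 : ℝ), (0 : ℝ)) (R, R) ∧ b ∈ Icc 0 R)) : fib F w R g y b = 0 :=
  indicator_of_notMem (fun hm => h ⟨⟨⟨hm.2.1 0, hm.2.1 2⟩, ⟨hm.2.2 0, hm.2.2 2⟩⟩,
    hm.2.1 1, hm.2.2 1⟩) _

theorem integrable_fib {R : ℝ} {g : R3 → ℝ} (hg : Continuous g) (y : ℝ × ℝ) :
    Integrable (fib F w R g y) volume := by
  obtain ⟨C, hC0, hC⟩ := exists_fib_bound F w R hg
  refine Integrable.mono' (g := (Icc 0 R).indicator fun _ => C) ?_
    ((measurable_fib hg).comp (measurable_const.prodMk measurable_id)).aestronglyMeasurable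
    (.of_forall fun b => ?_)
  · exact (integrable_indicator_iff measurableSet_Icc).2 (integrableOn_const measure_Icc_lt_top.ne)
  · by_cases hb : b ∈ Icc 0 R
    · rw [indicator_of_mem hb]; exact hC _ _
    · rw [indicator_of_notMem hb, fib_eq_zero fun hh => hb hh.2]; simp

theorem integral_moved {d : ℝ × ℝ → ℝ} (hd : Continuous d) {R ε : ℝ}
    (hbox : moved F w d ε ⊆ Icc 0 (fun _ => R)) {g : R3 → ℝ} (hg : Continuous g) :
    Integrable (fun y => ∫ b in Iic (ub w y + ε * d y), fib F w R g y b) ∧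
    ∫ x in moved F w d ε, g x = ∫ y, ∫ b in Iic (ub w y + ε * d y), fib F w R g y b := by
  have hSc := isCompact_room F w R
  set T : Set R3 := {x | x 1 ≤ ub w (x 0, x 2) + ε * d (x 0, x 2)} with hT
  have hp : Continuous fun x : R3 => (x 0, x 2) := by fun_prop
  have hTm : MeasurableSet T := (isClosed_le (continuous_apply 1)
    (((continuous_ub w).comp hp).add (continuous_const.mul (hd.comp hp)))).measurableSet
  have e1 : moved F w d ε = T ∩ room F w R :=
    Subset.antisymm (fun x hx => ⟨hx.2, hx.1, hbox hx⟩) (fun x hx => ⟨hx.2.1, hx.1⟩)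
  have hint : Integrable ((T ∩ room F w R).indicator g) volume := by
    rw [← indicator_indicator]
    exact ((integrable_indicator_iff hSc.measurableSet).2
      (hg.continuousOn.integrableOn_compact hSc)).indicator hTm
  obtain ⟨i1, i2⟩ := integral_mk hint
  have e2 : ∀ y b, (T ∩ room F w R).indicator g (mk y b) =
      (Iic (ub w y + ε * d y)).indicator (fib F w R g y) b := by
    intro y b
    rw [← indicator_indicator]
    simp only [indicator, fib, hT, mem_ofPred_eq, mk_one, mk_zero, mk_two, mem_Iic]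
  simp only [e2, integral_indicator measurableSet_Iic] at i1 i2
  rw [e1, ← integral_indicator (hTm.inter hSc.measurableSet), i2]
  exact ⟨i1, rfl⟩

/-- The difference quotient on a fibre. -/
noncomputable def quot (F : Finset R3) (w : R3) (R : ℝ) (g : R3 → ℝ) (d : ℝ × ℝ → ℝ) (ε : ℝ)
    (y : ℝ × ℝ) : ℝ :=
  d y * ∫ τ in (0 : ℝ)..1, fib F w R g y (ub w y + ε * d y * τ)

theorem quot_eq (hw : w ∈ F) (h1 : 0 < w 1) {d : ℝ × ℝ → ℝ} (hd : Continuous d) {R ε : ℝ}
    (hε : 0 < ε) (hbox : moved F w d ε ⊆ Icc 0 (fun _ => R))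
    (hbox0 : moved F w d 0 ⊆ Icc 0 (fun _ => R)) {g : R3 → ℝ} (hg : Continuous g) :
    ((∫ x in moved F w d ε, g x) - ∫ x in body F, g x) / ε = ∫ y, quot F w R g d ε y := by
  obtain ⟨a1, a2⟩ := integral_moved hd hbox hg
  obtain ⟨b1, b2⟩ := integral_moved hd hbox0 hg
  rw [← moved_zero hw h1 d, a2, b2, ← integral_sub a1 b1, ← integral_div]
  refine integral_congr_ae (.of_forall fun y => ?_)
  simp only [zero_mul, add_zero, quot]
  rw [intervalIntegral.integral_Iic_sub_Iic (integrable_fib hg y).integrableOn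
    (integrable_fib hg y).integrableOn]
  have e := intervalIntegral.smul_integral_comp_add_mul (a := 0) (b := 1) (fib F w R g y)
    (ε * d y) (ub w y)
  simp only [mul_zero, add_zero, mul_one, smul_eq_mul] at e
  rw [← e]
  field_simp [hε.ne']

theorem aestronglyMeasurable_quot {d : ℝ × ℝ → ℝ} (hd : Continuous d) {R : ℝ} (ε : ℝ) {g : R3 → ℝ}
    (hg : Continuous g) : AEStronglyMeasurable (quot F w R g d ε) volume := by
  refine (hd.aestronglyMeasurable).mul ?_
  have hu : Measurable fun p : (ℝ × ℝ) × ℝ => ub w p.1 + ε * d p.1 * p.2 :=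
    (((continuous_ub w).comp continuous_fst).add
      ((continuous_const.mul (hd.comp continuous_fst)).mul continuous_snd)).measurable
  have hm : Measurable fun p : (ℝ × ℝ) × ℝ => fib F w R g p.1 (ub w p.1 + ε * d p.1 * p.2) :=
    (measurable_fib hg).comp (measurable_fst.prodMk hu)
  simp only [intervalIntegral.integral_of_le zero_le_one]
  exact (hm.stronglyMeasurable.integral_prod_right'
    (ν := volume.restrict (Ioc (0 : ℝ) 1))).aestronglyMeasurable

/-- Points whose lift avoids every other boundary plane. -/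
def generic (F : Finset R3) (w : R3) (R : ℝ) (y : ℝ × ℝ) : Prop :=
  y.1 ≠ 0 ∧ y.2 ≠ 0 ∧ ub w y ≠ 0 ∧ ub w y ≠ R ∧
    ∀ v ∈ F.erase w, dot v (mk y (ub w y)) ≠ 1

theorem ae_generic (h1 : 0 < w 1) {R : ℝ} (hR : 1 / w 1 < R) :
    ∀ᵐ y : ℝ × ℝ, generic F w R y := by
  have l : ∀ α β γ : ℝ, (α ≠ 0 ∨ β ≠ 0 ∨ γ ≠ 0) →
      ∀ᵐ y : ℝ × ℝ, α * y.1 + β * y.2 ≠ γ := fun α β γ hh =>
    measure_eq_zero_iff_ae_notMem.1 (null_line hh)
  have hl : ∀ᵐ y : ℝ × ℝ, ∀ v ∈ F.erase w, dot v (mk y (ub w y)) ≠ 1 := by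
    refine (ae_ball_iff (F.erase w).countable_toSet).2 fun v hv => ?_
    have hh : v 0 * w 1 - v 1 * w 0 ≠ 0 ∨ v 2 * w 1 - v 1 * w 2 ≠ 0 ∨ w 1 - v 1 ≠ 0 := by
      by_contra hcon
      push Not at hcon
      obtain ⟨c0, c2, c1⟩ := hcon
      refine (Finset.mem_erase.1 hv).1 (funext fun k => ?_)
      have e1 : v 1 = w 1 := by linarith
      rw [e1] at c0 c2
      fin_cases k
      · show v 0 = w 0
        exact mul_right_cancel₀ h1.ne' (by linarith)
      · exact e1
      · show v 2 = w 2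
        exact mul_right_cancel₀ h1.ne' (by linarith)
    filter_upwards [l _ _ _ hh] with y hy heq
    refine hy ?_
    simp only [dot, mk_zero, mk_one, mk_two, ub] at heq
    field_simp at heq
    linarith
  have hR' : 1 < R * w 1 := by rwa [div_lt_iff₀ h1] at hR
  filter_upwards [l 1 0 0 (Or.inl one_ne_zero), l 0 1 0 (Or.inr (Or.inl one_ne_zero)),
    l (w 0) (w 2) 1 (Or.inr (Or.inr one_ne_zero)),
    l (w 0) (w 2) (1 - R * w 1) (Or.inr (Or.inr (by linarith))), hl] with y a1 a2 a5 a6 a7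
  refine ⟨?_, ?_, fun e => a5 ?_, fun e => a6 ?_, a7⟩
  · simpa using a1
  · simpa using a2
  · simp only [ub, div_eq_iff h1.ne'] at e; linarith
  · simp only [ub, div_eq_iff h1.ne'] at e; linarith

theorem fib_facet (hw : w ∈ F) (h1 : 0 < w 1) {R : ℝ} (hbox : body F ⊆ Icc 0 (fun _ => R))
    (g : R3 → ℝ) {y : ℝ × ℝ} (hy : generic F w R y) :
    fib F w R g y (ub w y) = (act F w).indicator (fun y => g (mk y (ub w y))) y := by
  obtain ⟨ha0, hc0, hu0, -, hv⟩ := hy
  have hiff : mk y (ub w y) ∈ room F w R ↔ y ∈ act F w := by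
    constructor
    · intro hm
      exact ⟨lt_of_le_of_ne (hm.2.1 0) (Ne.symm ha0), lt_of_le_of_ne (hm.2.1 2) (Ne.symm hc0),
        lt_of_le_of_ne (hm.2.1 1) (Ne.symm hu0), fun v hvF hne =>
          lt_of_le_of_ne (hm.1.2 v (Finset.mem_erase.2 ⟨hne, hvF⟩))
            (hv v (Finset.mem_erase.2 ⟨hne, hvF⟩))⟩
    · rintro ⟨a, c, b, ho⟩
      have hb : mk y (ub w y) ∈ body F := by
        refine ⟨fun k => by fin_cases k <;> simp [a.le, b.le, c.le], fun v hvF => ?_⟩
        rcases eq_or_ne v w with rfl | hne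
        · exact (dot_ub h1.ne' y).le
        · exact (ho v hvF hne).le
      exact ⟨⟨hb.1, fun v hvm => hb.2 v (Finset.mem_of_mem_erase hvm)⟩, hbox hb⟩
  classical
  simp only [fib, indicator]
  exact if_congr hiff rfl rfl

theorem continuousAt_fib {R : ℝ} {g : R3 → ℝ} (hg : Continuous g) {y : ℝ × ℝ}
    (hy : generic F w R y) : ContinuousAt (fib F w R g y) (ub w y) := by
  obtain ⟨-, -, hu0, huR, hv⟩ := hy
  have hz : Continuous fun b => mk y b :=
    continuous_mk.comp (continuous_const.prodMk continuous_id)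
  classical
  by_cases hm : mk y (ub w y) ∈ room F w R
  · refine (hg.comp hz).continuousAt.congr ?_
    have hdot : ∀ᶠ b in 𝓝 (ub w y), ∀ v ∈ F.erase w, dot v (mk y b) < 1 :=
      (eventually_all_finset _).2 fun v hvm =>
        ((continuous_dot v).comp hz).continuousAt.eventually_lt continuousAt_const
          (lt_of_le_of_ne (hm.1.2 v hvm) (hv v hvm))
    filter_upwards [hdot, eventually_gt_nhds (lt_of_le_of_ne (hm.2.1 1) (Ne.symm hu0)),
      eventually_lt_nhds (lt_of_le_of_ne (hm.2.2 1) huR)] with b hb b0 bR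
    have h0 : (0 : R3) ≤ mk y b := fun k => by
      fin_cases k
      · exact hm.2.1 0
      · exact b0.le
      · exact hm.2.1 2
    have hmem : mk y b ∈ room F w R := ⟨⟨h0, fun v hvm => (hb v hvm).le⟩, h0, fun k => by
      fin_cases k
      · exact hm.2.2 0
      · exact bR.le
      · exact hm.2.2 2⟩
    simp [fib, indicator_of_mem hmem]
  · refine continuousAt_const.congr (f := fun _ => (0 : ℝ)) ?_
    filter_upwards [((isCompact_room F w R).isClosed.isOpen_compl.preimage hz).mem_nhds hm]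
      with b hb
    simp [fib, indicator_of_notMem (show mk y b ∉ room F w R from hb)]

theorem tendsto_eps (e : ℝ) : Tendsto (fun n : ℕ => e / ((n : ℝ) + 1)) atTop (𝓝 0) := by
  simpa [div_eq_mul_inv] using tendsto_one_div_add_atTop_nhds_zero_nat.const_mul e

theorem tendsto_quot (hw : w ∈ F) (h1 : 0 < w 1) {d : ℝ × ℝ → ℝ} (hd : Continuous d) {R : ℝ}
    (ε₀ : ℝ) (hR : 1 / w 1 < R) (hbox : body F ⊆ Icc 0 (fun _ => R)) {g : R3 → ℝ}
    (hg : Continuous g) :
    Tendsto (fun n : ℕ => ∫ y, quot F w R g d (ε₀ / (n + 1)) y) atTop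
      (𝓝 (∫ y in act F w, d y * g (mk y (ub w y)))) := by
  obtain ⟨C, hC0, hC⟩ := exists_fib_bound F w R hg
  rw [← integral_indicator (isOpen_act F w).measurableSet]
  refine tendsto_integral_of_dominated_convergence
    ((Icc ((0 : ℝ), (0 : ℝ)) (R, R)).indicator fun y => |d y| * C)
    (fun n => aestronglyMeasurable_quot hd _ hg) ?_ (fun n => .of_forall fun y => ?_) ?_
  · exact (integrable_indicator_iff measurableSet_Icc).2
      ((hd.abs.mul continuous_const).continuousOn.integrableOn_compact isCompact_Icc)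
  · by_cases hy : y ∈ Icc ((0 : ℝ), (0 : ℝ)) (R, R)
    · rw [indicator_of_mem hy, quot, norm_mul, Real.norm_eq_abs]
      gcongr
      exact (intervalIntegral.norm_integral_le_of_norm_le_const (C := C)
        fun τ _ => hC _ _).trans (by simp)
    · have : ∀ b, fib F w R g y b = 0 := fun b => fib_eq_zero fun hh => hy hh.1
      simp [indicator_of_notMem hy, quot, this]
  · filter_upwards [ae_generic (F := F) h1 hR] with y hy
    have hts : Tendsto (fun n : ℕ => ∫ τ in (0 : ℝ)..1,
        fib F w R g y (ub w y + ε₀ / (n + 1) * d y * τ))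
        atTop (𝓝 (∫ _ in (0 : ℝ)..1, fib F w R g y (ub w y))) := by
      refine intervalIntegral.tendsto_integral_filter_of_dominated_convergence (fun _ => C)
        (.of_forall fun n => ?_) (.of_forall fun n => .of_forall fun τ _ => hC _ _)
        intervalIntegrable_const (.of_forall fun τ _ => ?_)
      · have hu : Measurable fun τ : ℝ => ub w y + ε₀ / (n + 1) * d y * τ := by fun_prop
        exact ((measurable_fib hg).comp (measurable_const.prodMk hu)).aestronglyMeasurable
      · refine (continuousAt_fib hg hy).tendsto.comp ?_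
        simpa using (((tendsto_eps ε₀).mul_const (d y)).mul_const τ).const_add (ub w y)
    rw [indicator_mul_right, ← fib_facet hw h1 hbox g hy]
    simpa [quot] using hts.const_mul (d y)

theorem first_var {N : ℕ} (h : Opt N F) (hw : w ∈ F) (h1 : 0 < w 1)
    {d : ℝ × ℝ → ℝ} (hd : Continuous d) {R ε₀ : ℝ} (hε₀ : 0 < ε₀) (hR : 1 / w 1 < R)
    (hbox : ∀ ε ∈ Icc 0 ε₀, moved F w d ε ⊆ Icc 0 (fun _ => R))
    (hadm : ∀ ε ∈ Ioc 0 ε₀, ∃ F', Good F' ∧ F'.card ≤ N ∧ body F' = moved F w d ε) :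
    0 ≤ ∫ y in act F w, d y * (4 - y.1 - ub w y - y.2) := by
  have hb0 := hbox 0 ⟨le_rfl, hε₀.le⟩
  have hbody : body F ⊆ Icc 0 (fun _ => R) := moved_zero hw h1 d ▸ hb0
  have hle : ∀ n : ℕ, ε₀ / ((n : ℝ) + 1) ≤ ε₀ := fun n =>
    div_le_self hε₀.le (by linarith [n.cast_nonneg (α := ℝ)])
  have hkey : ∀ g : R3 → ℝ, Continuous g →
      Tendsto (fun n : ℕ => ((∫ x in moved F w d (ε₀ / (n + 1)), g x) - ∫ x in body F, g x) /
        (ε₀ / (n + 1))) atTop (𝓝 (∫ y in act F w, d y * g (mk y (ub w y)))) := by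
    intro g hg
    refine (tendsto_quot hw h1 hd ε₀ hR hbody hg).congr fun n => (quot_eq hw h1 hd (by positivity)
      (hbox _ ⟨by positivity, hle n⟩) hb0 hg).symm
  set V := vol F with hV
  have hV0 : 0 < V := h.good.vol_pos
  set ε : ℕ → ℝ := fun n => ε₀ / (n + 1) with hε
  set A : ℕ → ℝ := fun n => ((∫ x in moved F w d (ε n), (1 : ℝ)) - ∫ x in body F, (1 : ℝ)) / ε n
  set B : Fin 3 → ℕ → ℝ := fun k n =>
    ((∫ x in moved F w d (ε n), x k) - ∫ x in body F, x k) / ε n
  have hA := hkey (fun _ => 1) continuous_const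
  have hB := fun k : Fin 3 => hkey (fun x => x k) (continuous_apply k)
  set P : ℕ → ℝ := fun n =>
    (4 * V ^ 3 * A n + ε n * (6 * V ^ 2 * A n ^ 2) + ε n ^ 2 * (4 * V * A n ^ 3) +
      ε n ^ 3 * A n ^ 4) - V * (V ^ 2 * (B 0 n + B 1 n + B 2 n) +
      ε n * V * (B 0 n * B 1 n + B 0 n * B 2 n + B 1 n * B 2 n) +
      ε n ^ 2 * (B 0 n * B 1 n * B 2 n))
  have hP : ∀ n, 0 ≤ P n := by
    intro n
    have he : 0 < ε n := by positivity
    obtain ⟨F', hg', hc', hb'⟩ := hadm (ε n) ⟨he, hle n⟩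
    have hv : vol F' = V + ε n * A n := by
      simp only [A, mul_div_cancel₀ _ he.ne']
      simp [vol, hV, hb']
    have hm : ∀ k, mom F' k = V + ε n * B k n := by
      intro k
      have hc : (∫ x in body F, x k) = V := h.cent k
      simp only [B, mul_div_cancel₀ _ he.ne', mom, hb', hc]
      ring
    have hG := h.min F' hg' hc'
    simp only [G, h.cent, Finset.prod_const, Finset.card_univ, Fintype.card_fin, ← hV] at hG
    rw [le_div_iff₀ hg'.prod_mom_pos, Fin.prod_univ_three, hm, hm, hm, hv,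
      show V ^ 4 / V ^ 3 = V by field_simp] at hG
    have hd' : (V + ε n * A n) ^ 4 -
        V * ((V + ε n * B 0 n) * (V + ε n * B 1 n) * (V + ε n * B 2 n)) = ε n * P n := by
      simp only [P]; ring
    exact nonneg_of_mul_nonneg_right (by linarith) he
  have hεt : Tendsto ε atTop (𝓝 0) := tendsto_eps ε₀
  set a := ∫ y in act F w, d y * (1 : ℝ)
  set c : Fin 3 → ℝ := fun k => ∫ y in act F w, d y * mk y (ub w y) k
  have hlim : Tendsto P atTop (𝓝 (V ^ 3 * (4 * a - (c 0 + c 1 + c 2)))) := by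
    have := (((((hA.const_mul (4 * V ^ 3)).add (hεt.mul ((hA.pow 2).const_mul (6 * V ^ 2)))).add
      ((hεt.pow 2).mul ((hA.pow 3).const_mul (4 * V)))).add ((hεt.pow 3).mul (hA.pow 4))).sub
      (((((((hB 0).add (hB 1)).add (hB 2)).const_mul (V ^ 2)).add
        ((hεt.mul_const V).mul ((((hB 0).mul (hB 1)).add ((hB 0).mul (hB 2))).add
          ((hB 1).mul (hB 2))))).add
        ((hεt.pow 2).mul (((hB 0).mul (hB 1)).mul (hB 2)))).const_mul V))
    convert this using 2
    simp [a, c]; ring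
  have h0 := ge_of_tendsto' hlim hP
  have hfin : 0 ≤ 4 * a - (c 0 + c 1 + c 2) := nonneg_of_mul_nonneg_right h0 (by positivity)
  have hsub : act F w ⊆ Icc ((0 : ℝ), (0 : ℝ)) (R, R) := by
    intro y hy
    have hb : mk y (ub w y) ∈ body F := by
      refine ⟨fun k => by fin_cases k <;> simp [hy.1.le, hy.2.1.le, hy.2.2.1.le], fun v hvF => ?_⟩
      rcases eq_or_ne v w with rfl | hne
      · exact (dot_ub h1.ne' y).le
      · exact (hy.2.2.2 v hvF hne).le
    have := hbody hb
    exact ⟨⟨this.1 0, this.1 2⟩, ⟨this.2 0, this.2 2⟩⟩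
  have hi : ∀ f : ℝ × ℝ → ℝ, Continuous f → IntegrableOn f (act F w) volume := fun f hf =>
    (hf.continuousOn.integrableOn_compact isCompact_Icc).mono_set hsub
  have hu := continuous_ub w
  have e : ∫ y in act F w, d y * (4 - y.1 - ub w y - y.2) = 4 * a - (c 0 + c 1 + c 2) := by
    simp only [a, c, mk_zero, mk_one, mk_two]
    rw [← integral_add (hi _ (by fun_prop)) (hi _ (by fun_prop)),
      ← integral_add (hi _ (by fun_prop)) (hi _ (by fun_prop)), ← integral_const_mul,
      ← integral_sub (hi _ (by fun_prop)) (hi _ (by fun_prop))]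
    exact integral_congr_ae (.of_forall fun y => by ring)
  linarith

end Vale.Agent.P254u
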